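import Crest.Agent.N76.Red.Defs

/-! # Row 76: elementary properties of `ph`, `HH`, `Adm`, `Phi` (helper14). -/

set_option autoImplicit false

open MeasureTheory Set Metric
open scoped ENNReal RealInnerProductSpace

namespace Crest.Agent.N76.Red

variable {n : ℕ}

theorem norm_ph (r : ℝ) : ‖ph r‖ = 1 := by
  unfold ph
  have : (2 * Real.pi * r * Complex.I : ℂ) = ((2 * Real.pi * r : ℝ) : ℂ) * Complex.I := by
    push_cast; ring
  rw [this, Complex.norm_exp_ofReal_mul_I]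

theorem ph_add (a b : ℝ) : ph (a + b) = ph a * ph b := by
  unfold ph
  rw [← Complex.exp_add]; congr 1; push_cast; ring


theorem conj_ph (r : ℝ) : (starRingEnd ℂ) (ph r) = ph (-r) := by
  unfold ph
  rw [← Complex.exp_conj]; congr 1
  simp [Complex.conj_ofReal, map_ofNat]

theorem continuous_ph : Continuous ph := by
  unfold ph; fun_prop

theorem measurable_ph : Measurable ph := continuous_ph.measurable

theorem re_ph (r : ℝ) : (ph r).re = Real.cos (2 * Real.pi * r) := by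
  unfold ph
  have : (2 * Real.pi * r * Complex.I : ℂ) = ((2 * Real.pi * r : ℝ) : ℂ) * Complex.I := by
    push_cast; ring
  rw [this, Complex.exp_ofReal_mul_I_re]

theorem half_le_re_ph {r : ℝ} (hr : |r| ≤ 1 / 6) : 1 / 2 ≤ (ph r).re := by
  rw [re_ph, ← Real.cos_abs, ← Real.cos_pi_div_three]
  have hpi := Real.pi_pos
  have h1 : |2 * Real.pi * r| = 2 * Real.pi * |r| := by
    rw [abs_mul, abs_of_pos (by positivity)]
  apply Real.cos_le_cos_of_nonneg_of_le_pi (abs_nonneg _) (by linarith)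
  rw [h1]; nlinarith

theorem Adm.integrable {E : Set (V n)} {g : V n → ℂ} (hg : Adm E g) (hE : MeasurableSet E)
    (hfin : volume E ≠ ∞) : Integrable g := by
  have h1 : Integrable (E.indicator (fun _ => (1 : ℝ))) :=
    (integrable_indicator_iff hE).2 (integrableOn_const hfin)
  refine h1.mono' hg.1.aestronglyMeasurable (Filter.Eventually.of_forall fun x => ?_)
  by_cases hx : x ∈ E
  · simpa [hx] using hg.2.1 x
  · simp [hx, hg.2.2 x hx]

theorem Adm.mul_ph {E : Set (V n)} {g : V n → ℂ} (hg : Adm E g) {θ : V n → ℝ}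
    (hθ : Measurable θ) : Adm E (fun x => g x * ph (θ x)) := by
  refine ⟨hg.1.mul (measurable_ph.comp hθ), fun x => ?_, fun x hx => ?_⟩
  · rw [norm_mul, norm_ph, mul_one]; exact hg.2.1 x
  · simp [hg.2.2 x hx]

theorem Adm.mono {E E' : Set (V n)} {g : V n → ℂ} (hg : Adm E g) (h : E ⊆ E') : Adm E' g :=
  ⟨hg.1, hg.2.1, fun x hx => hg.2.2 x fun hx' => hx (h hx')⟩

theorem Adm.indicator {E F : Set (V n)} {g : V n → ℂ} (hg : Adm E g) (hF : MeasurableSet F) :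
    Adm (E ∩ F) (F.indicator g) := by
  refine ⟨hg.1.indicator hF, fun x => ?_, fun x hx => ?_⟩
  · by_cases h : x ∈ F
    · simpa [h] using hg.2.1 x
    · simp [h]
  · by_cases h : x ∈ F
    · simp only [indicator_of_mem h]
      exact hg.2.2 x fun hE => hx ⟨hE, h⟩
    · simp [h]

theorem integrable_mul_ph {g : V n → ℂ} (hg : Integrable g) {θ : V n → ℝ} (hθ : Measurable θ) :
    Integrable (fun x => g x * ph (θ x)) := by
  refine hg.norm.mono' (hg.1.mul (measurable_ph.comp hθ).aestronglyMeasurable)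
    (Filter.Eventually.of_forall fun x => ?_)
  rw [norm_mul, norm_ph, mul_one]

theorem measurable_phase {τ : V n → ℝ} (hτ : Measurable τ) (ξ : V n) (σ : ℝ) :
    Measurable (fun x : V n => ⟪x, ξ⟫ + τ x * σ) := by
  fun_prop

theorem norm_HH_le {g : V n → ℂ} (τ : V n → ℝ) (ξ : V n) (σ : ℝ) :
    ‖HH g τ ξ σ‖ ≤ ∫ x, ‖g x‖ := by
  refine (norm_integral_le_integral_norm _).trans (le_of_eq ?_)
  congr 1; ext x; rw [norm_mul, norm_ph, mul_one]

theorem continuous_HH {g : V n → ℂ} (hg : Integrable g) {τ : V n → ℝ} (hτ : Measurable τ) :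
    Continuous (fun p : V n × ℝ => HH g τ p.1 p.2) := by
  unfold HH
  refine continuous_of_dominated (bound := fun x => ‖g x‖) (fun p => ?_) (fun p => ?_) hg.norm ?_
  · exact (integrable_mul_ph hg (measurable_phase hτ _ _)).1
  · exact Filter.Eventually.of_forall fun x => by rw [norm_mul, norm_ph, mul_one]
  · refine Filter.Eventually.of_forall fun x => ?_
    exact continuous_const.mul (continuous_ph.comp (by fun_prop))

theorem continuous_H {g : V n → ℂ} (hg : Integrable g) {τ : V n → ℝ} (hτ : Measurable τ) :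
    Continuous (H g τ) :=
  (continuous_HH hg hτ).comp (f := fun ξ : V n => (ξ, ‖ξ‖ ^ 2)) (by fun_prop)

/-- shifting the space-time frequency is a modulation of `g` -/
theorem HH_shift (g : V n → ℂ) (τ : V n → ℝ) (ξ η : V n) (σ u : ℝ) :
    HH g τ (ξ + η) (σ + u) = HH (fun x => g x * ph (⟪x, η⟫ + τ x * u)) τ ξ σ := by
  unfold HH
  congr 1; ext x
  rw [mul_assoc, ← ph_add, inner_add_right]; congr 2; ring

theorem le_Phi {E : Set (V n)} {g : V n → ℂ} (hg : Adm E g) (τ : V n → ℝ) (N : ℝ) :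
    ∫⁻ ξ in closedBall (0 : V n) N, ‖H g τ ξ‖ₑ ^ 2 ≤ Phi E τ N :=
  le_iSup₂_of_le (f := fun (g : V n → ℂ) (_ : Adm E g) =>
    ∫⁻ ξ in closedBall (0 : V n) N, ‖H g τ ξ‖ₑ ^ 2) g hg le_rfl

theorem Phi_le {E : Set (V n)} {τ : V n → ℝ} {N : ℝ} {b : ℝ≥0∞}
    (h : ∀ g, Adm E g → ∫⁻ ξ in closedBall (0 : V n) N, ‖H g τ ξ‖ₑ ^ 2 ≤ b) : Phi E τ N ≤ b :=
  iSup₂_le h

theorem lintegral_HH_shift_le {E : Set (V n)} {g : V n → ℂ} (hg : Adm E g) {τ : V n → ℝ}
    (hτ : Measurable τ) (N : ℝ) (η : V n) (u : ℝ) :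
    ∫⁻ ξ in closedBall (0 : V n) N, ‖HH g τ (ξ + η) (‖ξ‖ ^ 2 + u)‖ₑ ^ 2 ≤ Phi E τ N := by
  simp_rw [HH_shift]
  exact le_Phi (hg.mul_ph (measurable_phase hτ η u)) τ N

theorem HH_sum {ι : Type*} (s : Finset ι) (G : ι → V n → ℂ) (hG : ∀ i ∈ s, Integrable (G i))
    {τ : V n → ℝ} (hτ : Measurable τ) (ξ : V n) (σ : ℝ) :
    HH (fun x => ∑ i ∈ s, G i x) τ ξ σ = ∑ i ∈ s, HH (G i) τ ξ σ := by
  unfold HH
  simp_rw [Finset.sum_mul]
  exact integral_finsetSum s fun i hi => integrable_mul_ph (hG i hi) (measurable_phase hτ _ _)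

/-- a function is the sum of its pieces on the fibres of a labelling -/
theorem eq_sum_fibres {ι : Type*} [DecidableEq ι] {E : Set (V n)} {g : V n → ℂ} (hg : Adm E g)
    (ℓ : V n → ι) (s : Finset ι) (hs : ∀ x ∈ E, ℓ x ∈ s) :
    g = fun x => ∑ i ∈ s, (ℓ ⁻¹' {i}).indicator g x := by
  ext x
  by_cases hx : x ∈ E
  · rw [Finset.sum_eq_single (ℓ x)]
    · simp
    · intro b _ hb
      exact indicator_of_notMem (by simpa using hb.symm) _
    · intro h; exact absurd (hs x hx) h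
  · rw [hg.2.2 x hx]
    symm
    refine Finset.sum_eq_zero fun i _ => ?_
    by_cases h : x ∈ ℓ ⁻¹' {i}
    · rw [indicator_of_mem h, hg.2.2 x hx]
    · rw [indicator_of_notMem h]

/-- weighted Cauchy-Schwarz -/
theorem norm_sum_sq_le {ι : Type*} (s : Finset ι) (a : ι → ℂ) (w : ι → ℝ) (hw : ∀ i ∈ s, 0 < w i) :
    ‖∑ i ∈ s, a i‖ ^ 2 ≤ (∑ i ∈ s, (w i)⁻¹) * ∑ i ∈ s, w i * ‖a i‖ ^ 2 := by
  have h1 : ‖∑ i ∈ s, a i‖ ≤ ∑ i ∈ s, ‖a i‖ := norm_sum_le s a
  have h2 : (∑ i ∈ s, ‖a i‖) ^ 2 ≤ (∑ i ∈ s, (w i)⁻¹) * ∑ i ∈ s, w i * ‖a i‖ ^ 2 := by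
    apply Finset.sum_sq_le_sum_mul_sum_of_sq_le_mul s
    · intro i hi; exact (inv_pos.2 (hw i hi)).le
    · intro i hi; exact mul_nonneg (hw i hi).le (sq_nonneg _)
    · intro i hi; have := (hw i hi).ne'; exact le_of_eq (by field_simp)
  exact (pow_le_pow_left₀ (norm_nonneg _) h1 2).trans h2

theorem enorm_sq_eq (a : ℂ) : ‖a‖ₑ ^ 2 = ENNReal.ofReal (‖a‖ ^ 2) := by
  rw [← ofReal_norm, ENNReal.ofReal_pow (norm_nonneg _)]

theorem enorm_sum_sq_le {ι : Type*} (s : Finset ι) (a : ι → ℂ) (w : ι → ℝ)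
    (hw : ∀ i ∈ s, 0 < w i) :
    ‖∑ i ∈ s, a i‖ₑ ^ 2 ≤
      ENNReal.ofReal (∑ i ∈ s, (w i)⁻¹) * ∑ i ∈ s, ENNReal.ofReal (w i) * ‖a i‖ₑ ^ 2 := by
  have h0 : 0 ≤ ∑ i ∈ s, (w i)⁻¹ := Finset.sum_nonneg fun i hi => (inv_pos.2 (hw i hi)).le
  have : ∑ i ∈ s, ENNReal.ofReal (w i) * ‖a i‖ₑ ^ 2
      = ENNReal.ofReal (∑ i ∈ s, w i * ‖a i‖ ^ 2) := by
    rw [ENNReal.ofReal_sum_of_nonneg fun i hi => mul_nonneg (hw i hi).le (sq_nonneg _)]
    refine Finset.sum_congr rfl fun i hi => ?_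
    rw [enorm_sq_eq, ENNReal.ofReal_mul (hw i hi).le]
  rw [this, enorm_sq_eq, ← ENNReal.ofReal_mul h0]
  exact ENNReal.ofReal_le_ofReal (norm_sum_sq_le s a w hw)

/-- subadditivity of `Phi` along a finite measurable partition, with weights -/
theorem Phi_le_sum {ι : Type*} [DecidableEq ι] {E : Set (V n)} (hE : MeasurableSet E)
    (hfin : volume E ≠ ∞) {τ : V n → ℝ} (hτ : Measurable τ) (N : ℝ)
    (ℓ : V n → ι) (hℓ : ∀ i, MeasurableSet (ℓ ⁻¹' {i})) (s : Finset ι) (hs : ∀ x ∈ E, ℓ x ∈ s)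
    (w : ι → ℝ) (hw : ∀ i ∈ s, 0 < w i) :
    Phi E τ N ≤ ENNReal.ofReal (∑ i ∈ s, (w i)⁻¹) *
      ∑ i ∈ s, ENNReal.ofReal (w i) * Phi (E ∩ ℓ ⁻¹' {i}) τ N := by
  refine Phi_le fun g hg => ?_
  have hint : ∀ i ∈ s, Integrable ((ℓ ⁻¹' {i}).indicator g) := fun i _ =>
    (hg.integrable hE hfin).indicator (hℓ i)
  have hH : ∀ ξ, H g τ ξ = ∑ i ∈ s, H ((ℓ ⁻¹' {i}).indicator g) τ ξ := by
    intro ξ
    unfold H
    rw [← HH_sum s _ hint hτ, ← eq_sum_fibres hg ℓ s hs]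
  calc ∫⁻ ξ in closedBall (0 : V n) N, ‖H g τ ξ‖ₑ ^ 2
      ≤ ∫⁻ ξ in closedBall (0 : V n) N, ENNReal.ofReal (∑ i ∈ s, (w i)⁻¹) *
          ∑ i ∈ s, ENNReal.ofReal (w i) * ‖H ((ℓ ⁻¹' {i}).indicator g) τ ξ‖ₑ ^ 2 := by
        refine lintegral_mono fun ξ => ?_
        rw [hH]; exact enorm_sum_sq_le s _ w hw
    _ = ENNReal.ofReal (∑ i ∈ s, (w i)⁻¹) * ∑ i ∈ s, ENNReal.ofReal (w i) *
          ∫⁻ ξ in closedBall (0 : V n) N, ‖H ((ℓ ⁻¹' {i}).indicator g) τ ξ‖ₑ ^ 2 := by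
        rw [lintegral_const_mul' _ _ ENNReal.ofReal_ne_top, lintegral_finsetSum']
        · congr 1
          refine Finset.sum_congr rfl fun i _ => ?_
          rw [lintegral_const_mul' _ _ ENNReal.ofReal_ne_top]
        · intro i hi
          exact (((continuous_H (hint i hi) hτ).measurable.enorm.pow_const 2).const_mul
            _).aemeasurable
    _ ≤ _ := by
        gcongr with i hi
        exact le_Phi (hg.indicator (hℓ i)) τ N

end Crest.Agent.N76.Red
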