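import Crest.Agent.N76.Red.Basic
import Crest.Agent.N76.Red.StepA

-- ▼ part N76/Red/Scale
section

/-! # Row 76: parabolic scaling of `Phi` (helper14). -/

set_option autoImplicit false

open MeasureTheory Set Metric
open scoped ENNReal RealInnerProductSpace

namespace Crest.Agent.N76.Red

variable {n : ℕ}

theorem lintegral_smul_eq {W : Type*} [NormedAddCommGroup W] [InnerProductSpace ℝ W]
    [FiniteDimensional ℝ W] [MeasurableSpace W] [BorelSpace W] (F : W → ℝ≥0∞) {ρ : ℝ}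
    (hρ : 0 < ρ) :
    ∫⁻ ξ, F ξ = ENNReal.ofReal (ρ ^ Module.finrank ℝ W) * ∫⁻ ζ, F (ρ • ζ) := by
  have h1 : ∫⁻ ζ, F (ρ • ζ) = ∫⁻ ξ, F ξ ∂(Measure.map (fun ζ : W => ρ • ζ) volume) :=
    (lintegral_map_equiv F (Homeomorph.smul (isUnit_iff_ne_zero.2 hρ.ne').unit).toMeasurableEquiv).symm
  rw [h1, Measure.map_addHaar_smul volume hρ.ne', lintegral_smul_measure, smul_eq_mul, ← mul_assoc,
    ← ENNReal.ofReal_mul (by positivity), abs_of_pos (by positivity),
    mul_inv_cancel₀ (by positivity), ENNReal.ofReal_one, one_mul]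

/-- the rescaled set -/
def sE (E : Set (V n)) (x₀ : V n) (ρ : ℝ) : Set (V n) := {y | x₀ + ρ⁻¹ • y ∈ E}

/-- the rescaled time function -/
noncomputable def sT (τ : V n → ℝ) (x₀ : V n) (τ₀ ρ : ℝ) : V n → ℝ :=
  fun y => ρ ^ 2 * (τ (x₀ + ρ⁻¹ • y) - τ₀)

theorem measurable_aff (x₀ : V n) (ρ : ℝ) : Measurable (fun y : V n => x₀ + ρ⁻¹ • y) := by
  fun_prop

theorem measurableSet_sE {E : Set (V n)} (hE : MeasurableSet E) (x₀ : V n) (ρ : ℝ) :
    MeasurableSet (sE E x₀ ρ) := measurable_aff x₀ ρ hE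

theorem measurable_sT {τ : V n → ℝ} (hτ : Measurable τ) (x₀ : V n) (τ₀ ρ : ℝ) :
    Measurable (sT τ x₀ τ₀ ρ) :=
  ((hτ.comp (measurable_aff x₀ ρ)).sub_const _).const_mul _

theorem volume_sE (E : Set (V n)) (x₀ : V n) {ρ : ℝ} (hρ : 0 < ρ) :
    volume (sE E x₀ ρ) = ENNReal.ofReal (ρ ^ n) * volume E := by
  have : sE E x₀ ρ = (fun y : V n => ρ⁻¹ • y) ⁻¹' ((fun y => x₀ + y) ⁻¹' E) := rfl
  rw [this, Measure.addHaar_preimage_smul volume (inv_ne_zero hρ.ne'), measure_preimage_add]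
  simp [abs_of_pos (pow_pos hρ n)]

theorem norm_H_scale (g : V n → ℂ) (τ : V n → ℝ) (x₀ : V n) (τ₀ : ℝ) {ρ : ℝ} (hρ : 0 < ρ)
    (ζ : V n) :
    ‖H g τ (ρ • ζ)‖ = (ρ ^ n)⁻¹ * ‖H (fun y => g (x₀ + ρ⁻¹ • y)) (sT τ x₀ τ₀ ρ) ζ‖ := by
  unfold H HH
  set F : V n → ℂ := fun x => g x * ph (⟪x, ρ • ζ⟫ + τ x * ‖ρ • ζ‖ ^ 2) with hF
  have h1 : ∫ y, F (x₀ + ρ⁻¹ • y) = (ρ ^ n) • ∫ x, F x := by
    have := Measure.integral_comp_inv_smul_of_nonneg volume (fun y => F (x₀ + y)) hρ.le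
    simp only [finrank_euclideanSpace, Fintype.card_fin] at this
    rw [this, integral_add_left_eq_self]
  have h2 : ∀ y, F (x₀ + ρ⁻¹ • y) = ph (⟪x₀, ρ • ζ⟫ + ρ ^ 2 * τ₀ * ‖ζ‖ ^ 2) *
      (g (x₀ + ρ⁻¹ • y) * ph (⟪y, ζ⟫ + sT τ x₀ τ₀ ρ y * ‖ζ‖ ^ 2)) := by
    intro y
    simp only [hF, sT]
    rw [mul_left_comm, ← ph_add]
    congr 2
    rw [inner_add_left, inner_smul_left, inner_smul_right y, norm_smul, Real.norm_of_nonneg hρ.le]
    simp only [conj_trivial]
    field_simp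
    ring
  simp_rw [h2] at h1
  rw [integral_const_mul] at h1
  have h3 := congrArg norm h1
  rw [norm_mul, norm_ph, one_mul, norm_smul, Real.norm_of_nonneg (by positivity)] at h3
  rw [h3]; field_simp

theorem Phi_scale (E : Set (V n)) (τ : V n → ℝ) (x₀ : V n) (τ₀ : ℝ) {ρ : ℝ} (hρ : 0 < ρ)
    (N : ℝ) :
    Phi E τ (ρ * N) ≤ ENNReal.ofReal ((ρ ^ n)⁻¹) * Phi (sE E x₀ ρ) (sT τ x₀ τ₀ ρ) N := by
  refine Phi_le fun g hg => ?_
  have hg' : Adm (sE E x₀ ρ) (fun y => g (x₀ + ρ⁻¹ • y)) :=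
    ⟨hg.1.comp (measurable_aff x₀ ρ), fun y => hg.2.1 _, fun y hy => hg.2.2 _ hy⟩
  rw [← lintegral_indicator measurableSet_closedBall, lintegral_smul_eq _ hρ]
  simp only [finrank_euclideanSpace, Fintype.card_fin]
  have key : ∀ ζ : V n, (closedBall (0 : V n) (ρ * N)).indicator
      (fun ξ => ‖H g τ ξ‖ₑ ^ 2) (ρ • ζ) = ENNReal.ofReal ((ρ ^ n)⁻¹ ^ 2) *
      (closedBall (0 : V n) N).indicator
        (fun ζ => ‖H (fun y => g (x₀ + ρ⁻¹ • y)) (sT τ x₀ τ₀ ρ) ζ‖ₑ ^ 2) ζ := by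
    intro ζ
    have hiff : ρ • ζ ∈ closedBall (0 : V n) (ρ * N) ↔ ζ ∈ closedBall (0 : V n) N := by
      simp only [mem_closedBall_zero_iff, norm_smul, Real.norm_of_nonneg hρ.le]
      exact mul_le_mul_iff_right₀ hρ
    by_cases hζ : ζ ∈ closedBall (0 : V n) N
    · rw [indicator_of_mem hζ, indicator_of_mem (hiff.2 hζ), enorm_sq_eq, enorm_sq_eq,
        norm_H_scale g τ x₀ τ₀ hρ, mul_pow, ENNReal.ofReal_mul (by positivity)]
    · rw [indicator_of_notMem hζ, indicator_of_notMem (fun h => hζ (hiff.1 h)), mul_zero]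
  simp_rw [key]
  rw [lintegral_const_mul' _ _ ENNReal.ofReal_ne_top, lintegral_indicator measurableSet_closedBall,
    ← mul_assoc, ← ENNReal.ofReal_mul (by positivity)]
  have : ρ ^ n * (ρ ^ n)⁻¹ ^ 2 = (ρ ^ n)⁻¹ := by field_simp
  rw [this]
  gcongr
  exact le_Phi hg' _ _

end Crest.Agent.N76.Red
end

-- ▼ part N76/Red/Orth
section

/-! # Row 76: a band limited majorant and exact orthogonality (helper14). -/

set_option autoImplicit false
set_option linter.unusedSectionVars false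

open MeasureTheory Set Metric
open scoped ENNReal RealInnerProductSpace FourierTransform SchwartzMap ContDiff

namespace Crest.Agent.N76.Red

variable {n : ℕ}

section Maj

variable (W : Type*) [NormedAddCommGroup W] [InnerProductSpace ℝ W]
  [FiniteDimensional ℝ W] [MeasurableSpace W] [BorelSpace W]

/-- a nonnegative majorant of the unit ball whose Fourier transform lives in the unit ball -/
structure IsMaj (ψ : W → ℝ) : Prop where
  cont : Continuous ψ
  int : Integrable ψ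
  nonneg : ∀ u, 0 ≤ ψ u
  one_le : ∀ u, ‖u‖ ≤ 1 → 1 ≤ ψ u
  orth : ∀ w : W, 1 ≤ ‖w‖ → ∫ u, (ψ u : ℂ) * ph ⟪w, u⟫ = 0

variable {W} in
theorem fourier_eq_ph (f : W → ℂ) (u : W) : 𝓕 f u = ∫ v, ph (-⟪v, u⟫) * f v := by
  rw [Real.fourier_eq']
  congr 1; ext v
  rw [smul_eq_mul]; congr 1
  unfold ph; congr 1; push_cast; ring

theorem exists_isMaj : ∃ ψ : W → ℝ, IsMaj W ψ := by
  let β : ContDiffBump (0 : W) := ⟨1 / 12, 1 / 6, by norm_num, by norm_num⟩
  let f : W → W → ℂ := fun w x => ((2 * β.normed volume (x - w) : ℝ) : ℂ)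
  have hsm : ∀ w, ContDiff ℝ ∞ (f w) := fun w =>
    Complex.ofRealCLM.contDiff.comp
      (contDiff_const.mul (β.contDiff_normed.comp (contDiff_id.sub contDiff_const)))
  have hzero : ∀ w x, 1 / 6 ≤ ‖x - w‖ → f w x = 0 := by
    intro w x hx
    have : β.normed volume (x - w) = 0 := by
      by_contra h
      have h' : x - w ∈ Function.support (β.normed volume) := h
      rw [β.support_normed_eq, mem_ball_zero_iff] at h'
      exact absurd hx (not_le.2 h')
    simp [f, this]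
  have hcs : ∀ w, HasCompactSupport (f w) := fun w =>
    HasCompactSupport.intro (isCompact_closedBall w (1 / 6)) fun x hx =>
      hzero w x (by rw [mem_closedBall, dist_eq_norm, not_le] at hx; exact hx.le)
  let F : W → 𝓢(W, ℂ) := fun w => (hcs w).toSchwartzMap (hsm w)
  have hF : ∀ w x, F w x = f w x := fun _ _ => rfl
  have hFF : ∀ w u, (𝓕 (F w) : 𝓢(W, ℂ)) u = ph (-⟪w, u⟫) * (𝓕 (F 0) : 𝓢(W, ℂ)) u := by
    intro w u
    rw [SchwartzMap.fourier_coe, SchwartzMap.fourier_coe, fourier_eq_ph, fourier_eq_ph,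
      ← integral_const_mul, ← integral_add_right_eq_self _ w]
    congr 1; ext v
    simp only [hF, f, add_sub_cancel_right, sub_zero]
    rw [← mul_assoc, ← ph_add, inner_add_left]; congr 2; ring
  set b : 𝓢(W, ℂ) := 𝓕 (F 0) with hb
  refine ⟨fun u => ‖b u‖ ^ 2, by fun_prop, ?_, fun u => sq_nonneg _, fun u hu => ?_,
    fun w hw => ?_⟩
  · exact (b.memLp 2 volume).integrable_norm_pow (by norm_num)
  · have hint : Integrable (fun v : W => ph (-⟪v, u⟫) * F 0 v) := by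
      refine (F 0).integrable.norm.mono' ?_ (Filter.Eventually.of_forall fun v => ?_)
      · exact ((continuous_ph.comp (by fun_prop)).mul (F 0).continuous).aestronglyMeasurable
      · rw [norm_mul, norm_ph, one_mul]
    have h1 : 1 ≤ (b u).re := by
      rw [hb, SchwartzMap.fourier_coe, fourier_eq_ph]
      have h2 := integral_re (𝕜 := ℂ) hint
      simp only [RCLike.re_to_complex] at h2
      rw [← h2, ← β.integral_normed (μ := volume)]
      refine integral_mono β.integrable_normed hint.re fun v => ?_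
      simp only [hF, f, sub_zero, Complex.mul_re, Complex.ofReal_re, Complex.ofReal_im, mul_zero]
      by_cases hv : ‖v‖ < 1 / 6
      · have h3 : |(-⟪v, u⟫ : ℝ)| ≤ 1 / 6 := by
          rw [abs_neg]
          refine (abs_real_inner_le_norm v u).trans ?_
          nlinarith [norm_nonneg v, norm_nonneg u]
        have h4 := half_le_re_ph h3
        have h5 := β.nonneg_normed (μ := volume) v
        nlinarith
      · have : β.normed volume v = 0 := by
          by_contra h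
          have h' : v ∈ Function.support (β.normed volume) := h
          rw [β.support_normed_eq, mem_ball_zero_iff] at h'
          exact hv h'
        simp [this]
    have h6 : 1 ≤ ‖b u‖ := h1.trans (Complex.re_le_norm _)
    nlinarith
  · have h1 := SchwartzMap.integral_inner_fourier_fourier (F w) (F 0)
    have h2 : ∀ x, inner ℂ (F w x) (F 0 x) = 0 := by
      intro x
      by_cases hx : 1 / 6 ≤ ‖x - w‖
      · rw [hF, hzero w x hx, inner_zero_left]
      · have : 1 / 6 ≤ ‖x - 0‖ := by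
          rw [sub_zero]
          have h3 : ‖w‖ ≤ ‖x‖ + ‖x - w‖ := by
            calc ‖w‖ = ‖x - (x - w)‖ := by congr 1; abel
              _ ≤ _ := norm_sub_le _ _
          linarith [not_le.1 hx]
        rw [hF 0, hzero 0 x this, inner_zero_right]
    simp_rw [h2, integral_zero] at h1
    rw [← h1]
    congr 1; ext u
    rw [hFF w u, ← hb, RCLike.inner_apply, map_mul, conj_ph, neg_neg, mul_left_comm,
      Complex.mul_conj, Complex.normSq_eq_norm_sq, mul_comm]

end Maj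

section Orth

variable {W : Type*} [NormedAddCommGroup W] [InnerProductSpace ℝ W]
  [FiniteDimensional ℝ W] [MeasurableSpace W] [BorelSpace W]

/-- the transform of `G` along the position map `θ` -/
noncomputable def tr (G : V n → ℂ) (θ : V n → W) (u : W) : ℂ := ∫ x, G x * ph ⟪θ x, u⟫

theorem continuous_tr {G : V n → ℂ} (hG : Integrable G) {θ : V n → W} (hθ : Measurable θ) :
    Continuous (tr G θ) := by
  unfold tr
  refine continuous_of_dominated (bound := fun x => ‖G x‖) (fun p => ?_) (fun p => ?_) hG.norm ?_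
  · exact (integrable_mul_ph hG (by fun_prop)).1
  · exact Filter.Eventually.of_forall fun x => by rw [norm_mul, norm_ph, mul_one]
  · refine Filter.Eventually.of_forall fun x => ?_
    exact continuous_const.mul (continuous_ph.comp (by fun_prop))

theorem norm_tr_le (G : V n → ℂ) (θ : V n → W) (u : W) : ‖tr G θ u‖ ≤ ∫ x, ‖G x‖ := by
  refine (norm_integral_le_integral_norm _).trans (le_of_eq ?_)
  congr 1; ext x; rw [norm_mul, norm_ph, mul_one]

theorem integrable_maj_tr {ψ : W → ℝ} (hψ : IsMaj W ψ) {G G' : V n → ℂ} (hG : Integrable G)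
    (hG' : Integrable G') {θ : V n → W} (hθ : Measurable θ) :
    Integrable (fun u => (ψ u : ℂ) * (tr G θ u * (starRingEnd ℂ) (tr G' θ u))) := by
  refine (hψ.int.mul_const ((∫ x, ‖G x‖) * ∫ x, ‖G' x‖)).mono' ?_
    (Filter.Eventually.of_forall fun u => ?_)
  · refine Continuous.aestronglyMeasurable ?_
    exact (Complex.continuous_ofReal.comp hψ.cont).mul ((continuous_tr hG hθ).mul
      (Complex.continuous_conj.comp (continuous_tr hG' hθ)))
  · rw [norm_mul, norm_mul, Complex.norm_real, Real.norm_of_nonneg (hψ.nonneg u),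
      Complex.norm_conj]
    refine mul_le_mul_of_nonneg_left ?_ (hψ.nonneg u)
    exact mul_le_mul (norm_tr_le _ _ _) (norm_tr_le _ _ _) (norm_nonneg _)
      (integral_nonneg fun _ => norm_nonneg _)

theorem orth_pair {ψ : W → ℝ} (hψ : IsMaj W ψ) {G G' : V n → ℂ} (hG : Integrable G)
    (hG' : Integrable G') {θ : V n → W} (hθ : Measurable θ)
    (hsep : ∀ x y, G x ≠ 0 → G' y ≠ 0 → 1 ≤ ‖θ x - θ y‖) :
    ∫ u, (ψ u : ℂ) * (tr G θ u * (starRingEnd ℂ) (tr G' θ u)) = 0 := by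
  have h1 : ∀ u, (ψ u : ℂ) * (tr G θ u * (starRingEnd ℂ) (tr G' θ u)) =
      ∫ p : V n × V n, (G p.1 * (starRingEnd ℂ) (G' p.2)) *
        ((ψ u : ℂ) * ph ⟪θ p.1 - θ p.2, u⟫) := by
    intro u
    unfold tr
    rw [← integral_conj, ← integral_prod_mul, ← integral_const_mul]
    congr 1; ext p
    rw [map_mul, conj_ph, inner_sub_left, sub_eq_add_neg, ph_add]; ring
  simp_rw [h1]
  rw [integral_integral_swap]
  · refine integral_eq_zero_of_ae (Filter.Eventually.of_forall fun p => ?_)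
    simp only [Pi.zero_apply]
    rw [integral_const_mul]
    by_cases h : G p.1 = 0
    · simp [h]
    by_cases h' : G' p.2 = 0
    · simp [h']
    rw [hψ.orth _ (hsep _ _ h h'), mul_zero]
  · have hb : Integrable (fun q : W × (V n × V n) => ψ q.1 * (‖G q.2.1‖ * ‖G' q.2.2‖))
        (volume.prod volume) := hψ.int.mul_prod (hG.norm.mul_prod hG'.norm)
    refine hb.mono' ?_ (Filter.Eventually.of_forall fun q => ?_)
    · have m1 : AEStronglyMeasurable (fun q : W × (V n × V n) =>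
          G q.2.1 * (starRingEnd ℂ) (G' q.2.2)) (volume.prod volume) :=
        AEStronglyMeasurable.comp_snd
          (hG.1.comp_fst.mul (Complex.continuous_conj.comp_aestronglyMeasurable hG'.1.comp_snd))
      refine m1.mul (Measurable.aestronglyMeasurable ?_)
      exact (Complex.measurable_ofReal.comp (hψ.cont.measurable.comp measurable_fst)).mul
        (measurable_ph.comp (by fun_prop))
    · simp only [Function.uncurry, norm_mul, norm_ph, Complex.norm_conj, Complex.norm_real,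
        Real.norm_of_nonneg (hψ.nonneg _)]
      exact le_of_eq (by ring)

/-- exact orthogonality against the majorant -/
theorem orth_sum {ι : Type*} {ψ : W → ℝ} (hψ : IsMaj W ψ) (s : Finset ι) (G : ι → V n → ℂ)
    (hG : ∀ i ∈ s, Integrable (G i)) {θ : V n → W} (hθ : Measurable θ)
    (hsep : ∀ i ∈ s, ∀ j ∈ s, i ≠ j → ∀ x y, G i x ≠ 0 → G j y ≠ 0 → 1 ≤ ‖θ x - θ y‖) :
    ∫⁻ u, ENNReal.ofReal (ψ u) * ‖∑ i ∈ s, tr (G i) θ u‖ₑ ^ 2 =
      ∑ i ∈ s, ∫⁻ u, ENNReal.ofReal (ψ u) * ‖tr (G i) θ u‖ₑ ^ 2 := by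
  classical
  have key : ∀ a : W → ℂ, Integrable (fun u => (ψ u : ℂ) * (a u * (starRingEnd ℂ) (a u))) →
      ∫⁻ u, ENNReal.ofReal (ψ u) * ‖a u‖ₑ ^ 2 =
        ENNReal.ofReal (∫ u, (ψ u : ℂ) * (a u * (starRingEnd ℂ) (a u))).re := by
    intro a ha
    have h0 : ∀ u, ((ψ u : ℂ) * (a u * (starRingEnd ℂ) (a u))).re = ψ u * ‖a u‖ ^ 2 := by
      intro u
      rw [Complex.mul_conj, Complex.normSq_eq_norm_sq, ← Complex.ofReal_mul, Complex.ofReal_re]
    have h2 := integral_re (𝕜 := ℂ) ha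
    have h3 := ha.re
    simp only [RCLike.re_to_complex, h0] at h2 h3
    rw [← h2, ofReal_integral_eq_lintegral_ofReal h3
      (Filter.Eventually.of_forall fun u => mul_nonneg (hψ.nonneg u) (sq_nonneg _))]
    refine lintegral_congr fun u => ?_
    rw [enorm_sq_eq, ENNReal.ofReal_mul (hψ.nonneg u)]
  have hexp : ∀ u, (ψ u : ℂ) * ((∑ i ∈ s, tr (G i) θ u) *
      (starRingEnd ℂ) (∑ i ∈ s, tr (G i) θ u)) =
      ∑ i ∈ s, ∑ j ∈ s, (ψ u : ℂ) * (tr (G i) θ u * (starRingEnd ℂ) (tr (G j) θ u)) := by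
    intro u
    rw [map_sum, Finset.sum_mul_sum, Finset.mul_sum]
    exact Finset.sum_congr rfl fun i _ => Finset.mul_sum _ _ _
  have hij : ∀ i ∈ s, ∀ j ∈ s, Integrable
      (fun u => (ψ u : ℂ) * (tr (G i) θ u * (starRingEnd ℂ) (tr (G j) θ u))) :=
    fun i hi j hj => integrable_maj_tr hψ (hG i hi) (hG j hj) hθ
  have hall : Integrable (fun u => (ψ u : ℂ) * ((∑ i ∈ s, tr (G i) θ u) *
      (starRingEnd ℂ) (∑ i ∈ s, tr (G i) θ u))) := by
    simp_rw [hexp]
    exact integrable_finsetSum s fun i hi => integrable_finsetSum s fun j hj => hij i hi j hj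
  rw [key _ hall, Finset.sum_congr rfl fun i hi => key _ (hij i hi i hi),
    ← ENNReal.ofReal_sum_of_nonneg]
  · congr 1
    simp_rw [hexp]
    rw [integral_finsetSum s fun i hi => integrable_finsetSum s fun j hj => hij i hi j hj,
      Complex.re_sum]
    refine Finset.sum_congr rfl fun i hi => ?_
    rw [integral_finsetSum s fun j hj => hij i hi j hj, Finset.sum_eq_single i]
    · intro j hj hne
      exact orth_pair hψ (hG i hi) (hG j hj) hθ (hsep i hi j hj hne.symm)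
    · intro h; exact absurd hi h
  · intro i hi
    have h2 := integral_re (𝕜 := ℂ) (hij i hi i hi)
    simp only [RCLike.re_to_complex] at h2
    rw [← h2]
    refine integral_nonneg fun u => ?_
    simp only [Pi.zero_apply]
    rw [Complex.mul_conj, Complex.normSq_eq_norm_sq, ← Complex.ofReal_mul, Complex.ofReal_re]
    exact mul_nonneg (hψ.nonneg u) (sq_nonneg _)

/-- orthogonality for a colouring with finitely many colours -/
theorem orth_colour {ι κ : Type*} [Fintype κ] {ψ : W → ℝ} (hψ : IsMaj W ψ) (s : Finset ι)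
    (G : ι → V n → ℂ) (hG : ∀ i ∈ s, Integrable (G i)) {θ : V n → W} (hθ : Measurable θ)
    (col : ι → κ)
    (hsep : ∀ i ∈ s, ∀ j ∈ s, i ≠ j → col i = col j →
      ∀ x y, G i x ≠ 0 → G j y ≠ 0 → 1 ≤ ‖θ x - θ y‖) :
    ∫⁻ u, ENNReal.ofReal (ψ u) * ‖∑ i ∈ s, tr (G i) θ u‖ₑ ^ 2 ≤
      (Fintype.card κ : ℝ≥0∞) * ∑ i ∈ s, ∫⁻ u, ENNReal.ofReal (ψ u) * ‖tr (G i) θ u‖ₑ ^ 2 := by
  classical
  have hm : ∀ c : κ, Measurable fun u => ENNReal.ofReal (ψ u) *
      ‖∑ i ∈ s with col i = c, tr (G i) θ u‖ₑ ^ 2 := by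
    intro c
    refine hψ.cont.measurable.ennreal_ofReal.mul (Measurable.pow_const (Measurable.enorm ?_) 2)
    exact (continuous_finsetSum _ fun i hi =>
      continuous_tr (hG i (Finset.mem_filter.1 hi).1) hθ).measurable
  calc ∫⁻ u, ENNReal.ofReal (ψ u) * ‖∑ i ∈ s, tr (G i) θ u‖ₑ ^ 2
      ≤ ∫⁻ u, (Fintype.card κ : ℝ≥0∞) * ∑ c : κ, ENNReal.ofReal (ψ u) *
          ‖∑ i ∈ s with col i = c, tr (G i) θ u‖ₑ ^ 2 := by
        refine lintegral_mono fun u => ?_
        have h := enorm_sum_sq_le (Finset.univ : Finset κ)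
          (fun c => ∑ i ∈ s with col i = c, tr (G i) θ u) (fun _ => 1) (fun _ _ => one_pos)
        rw [Finset.sum_fiberwise s col fun i => tr (G i) θ u] at h
        simp only [inv_one, Finset.sum_const, Finset.card_univ, nsmul_eq_mul, mul_one,
          ENNReal.ofReal_natCast, ENNReal.ofReal_one, one_mul] at h
        rw [← Finset.mul_sum, mul_left_comm]
        gcongr
    _ = (Fintype.card κ : ℝ≥0∞) * ∑ c : κ, ∑ i ∈ s with col i = c,
          ∫⁻ u, ENNReal.ofReal (ψ u) * ‖tr (G i) θ u‖ₑ ^ 2 := by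
        rw [lintegral_const_mul' _ _ (ENNReal.natCast_ne_top _),
          lintegral_finsetSum _ fun c _ => hm c]
        congr 1
        refine Finset.sum_congr rfl fun c _ => ?_
        refine orth_sum hψ _ G (fun i hi => hG i (Finset.mem_filter.1 hi).1) hθ ?_
        intro i hi j hj hne
        rw [Finset.mem_filter] at hi hj
        exact hsep i hi.1 j hj.1 hne (hi.2.trans hj.2.symm)
    _ = _ := by
        rw [Finset.sum_fiberwise s col
          fun i => ∫⁻ u, ENNReal.ofReal (ψ u) * ‖tr (G i) θ u‖ₑ ^ 2]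

end Orth

end Crest.Agent.N76.Red
end

-- ▼ part N76/Red/Thick
section

/-! # Row 76: thickening by an average of exponentials (helper14). -/

set_option autoImplicit false

open MeasureTheory Set Metric
open scoped ENNReal RealInnerProductSpace

namespace Crest.Agent.N76.Red

variable {n : ℕ}

/-- Cauchy-Schwarz for lower integrals -/
theorem lintegral_cs {α : Type*} [MeasurableSpace α] (μ : Measure α) {f g : α → ℝ≥0∞}
    (hf : AEMeasurable f μ) (hg : AEMeasurable g μ) :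
    (∫⁻ a, f a * g a ∂μ) ^ 2 ≤ (∫⁻ a, f a ^ 2 ∂μ) * ∫⁻ a, g a ^ 2 ∂μ := by
  have h := ENNReal.lintegral_mul_le_Lp_mul_Lq μ Real.HolderConjugate.two_two hf hg
  simp only [Pi.mul_apply, ENNReal.rpow_two] at h
  calc (∫⁻ a, f a * g a ∂μ) ^ 2
      ≤ ((∫⁻ a, f a ^ 2 ∂μ) ^ (1 / 2 : ℝ) * (∫⁻ a, g a ^ 2 ∂μ) ^ (1 / 2 : ℝ)) ^ 2 := by gcongr
    _ = _ := by
      rw [mul_pow, ← ENNReal.rpow_two, ← ENNReal.rpow_two, ← ENNReal.rpow_mul,
        ← ENNReal.rpow_mul]
      norm_num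

theorem enorm_integral_sq_le {α : Type*} [MeasurableSpace α] (μ : Measure α) {f : α → ℂ}
    (hf : AEStronglyMeasurable f μ) :
    ‖∫ a, f a ∂μ‖ₑ ^ 2 ≤ μ univ * ∫⁻ a, ‖f a‖ₑ ^ 2 ∂μ := by
  have h := lintegral_cs μ (f := fun _ => 1) (g := fun a => ‖f a‖ₑ) aemeasurable_const hf.enorm
  simp only [one_mul, one_pow, lintegral_const] at h
  exact (pow_le_pow_left' (enorm_integral_le_lintegral_enorm f) 2).trans h

/-- the average of exponentials -/
noncomputable def avg (r : ℝ) : ℂ := ∫ η in Icc (-(1 / 6) : ℝ) (1 / 6), ph (r * η)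

theorem continuous_avg : Continuous avg := by
  unfold avg
  refine continuous_of_dominated (bound := fun _ => 1) (fun p => ?_) (fun p => ?_) ?_ ?_
  · exact (continuous_ph.comp (by fun_prop)).aestronglyMeasurable
  · exact Filter.Eventually.of_forall fun x => (norm_ph _).le
  · exact integrableOn_const (by simp)
  · exact Filter.Eventually.of_forall fun x => continuous_ph.comp (by fun_prop)

theorem le_norm_avg {r : ℝ} (hr : |r| ≤ 1) : 1 / 6 ≤ ‖avg r‖ := by
  refine le_trans ?_ (Complex.re_le_norm _)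
  have hint : IntegrableOn (fun η : ℝ => ph (r * η)) (Icc (-(1 / 6) : ℝ) (1 / 6)) :=
    (continuous_ph.comp (by fun_prop)).integrableOn_Icc
  have h2 := integral_re (𝕜 := ℂ) hint
  simp only [RCLike.re_to_complex] at h2
  unfold avg
  rw [← h2]
  have h3 : ∫ _ in Icc (-(1 / 6) : ℝ) (1 / 6), (1 / 2 : ℝ) = 1 / 6 := by
    rw [setIntegral_const]; simp; norm_num
  refine h3.symm.le.trans ?_
  refine setIntegral_mono_on (integrableOn_const (by simp)) hint.re measurableSet_Icc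
    fun η hη => half_le_re_ph ?_
  rw [abs_mul]
  have : |η| ≤ 1 / 6 := abs_le.2 hη
  nlinarith [abs_nonneg r, abs_nonneg η]

/-- **Thickening.** -/
theorem thick {E : Set (V n)} (hE : MeasurableSet E) (hfin : volume E ≠ ∞) {g : V n → ℂ}
    (hg : Adm E g) {p : V n → ℝ} (hp : Measurable p) (hp1 : ∀ x ∈ E, |p x| ≤ 1) :
    ∃ g' : V n → ℂ, Adm E g' ∧ ∀ Θ : V n → ℝ, Measurable Θ →
      ‖∫ x, g x * ph (Θ x)‖ₑ ^ 2 ≤
        12 * ∫⁻ η in Icc (-(1 / 6) : ℝ) (1 / 6), ‖∫ x, g' x * ph (Θ x + p x * η)‖ₑ ^ 2 := by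
  have hm : Measurable fun x => avg (p x) := continuous_avg.measurable.comp hp
  have hg' : Adm E (fun x => g x / (6 * avg (p x))) := by
    refine ⟨hg.1.div (hm.const_mul _), fun x => ?_, fun x hx => by simp [hg.2.2 x hx]⟩
    by_cases hx : x ∈ E
    · have h1 := le_norm_avg (hp1 x hx)
      rw [norm_div, norm_mul, div_le_one (by simp only [Complex.norm_ofNat]; linarith)]
      simp only [Complex.norm_ofNat]
      linarith [hg.2.1 x]
    · simp [hg.2.2 x hx]
  refine ⟨_, hg', fun Θ hΘ => ?_⟩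
  set g' : V n → ℂ := fun x => g x / (6 * avg (p x)) with hg'def
  have hi : Integrable g' := hg'.integrable hE hfin
  have h1 : ∀ x, g x * ph (Θ x) =
      6 * ∫ η in Icc (-(1 / 6) : ℝ) (1 / 6), g' x * ph (Θ x + p x * η) := by
    intro x
    simp_rw [ph_add, ← mul_assoc]
    rw [integral_const_mul]
    change _ = 6 * (g' x * ph (Θ x) * avg (p x))
    by_cases hx : x ∈ E
    · have h1 := le_norm_avg (hp1 x hx)
      have h2 : avg (p x) ≠ 0 := by
        intro h; rw [h, norm_zero] at h1; norm_num at h1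
      simp only [hg'def]; field_simp
    · simp [hg'def, hg.2.2 x hx]
  have hprod : Integrable (Function.uncurry fun (x : V n) (η : ℝ) => g' x * ph (Θ x + p x * η))
      (volume.prod (volume.restrict (Icc (-(1 / 6) : ℝ) (1 / 6)))) := by
    have hb : Integrable (fun q : V n × ℝ => ‖g' q.1‖ * (1 : ℝ))
        (volume.prod (volume.restrict (Icc (-(1 / 6) : ℝ) (1 / 6)))) :=
      hi.norm.mul_prod (integrableOn_const (by simp))
    refine hb.mono' ?_ (Filter.Eventually.of_forall fun q => ?_)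
    · exact hi.1.comp_fst.mul (measurable_ph.comp (by fun_prop)).aestronglyMeasurable
    · simp [Function.uncurry, norm_ph]
  simp_rw [h1]
  rw [integral_const_mul, integral_integral_swap hprod, enorm_mul, mul_pow]
  have h3 := enorm_integral_sq_le (volume.restrict (Icc (-(1 / 6) : ℝ) (1 / 6)))
    hprod.integral_prod_right.1
  simp only [Function.uncurry] at h3
  have h4 : (volume.restrict (Icc (-(1 / 6) : ℝ) (1 / 6))) univ = ENNReal.ofReal (1 / 3) := by
    rw [Measure.restrict_apply_univ, Real.volume_Icc]; norm_num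
  rw [h4] at h3
  have h5 : ‖(6 : ℂ)‖ₑ ^ 2 * ENNReal.ofReal (1 / 3) = 12 := by
    rw [enorm_sq_eq, ← ENNReal.ofReal_mul (by positivity)]
    simp only [Complex.norm_ofNat]
    norm_num
  rw [← h5, mul_assoc]
  gcongr

end Crest.Agent.N76.Red
end

-- ▼ part N76/Red/TimeLoc
section

/-! # Row 76: localisation in time (helper14). -/

set_option autoImplicit false

open MeasureTheory Set Metric
open scoped ENNReal RealInnerProductSpace

namespace Crest.Agent.N76.Red

variable {n : ℕ}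

theorem measurable_HH_sq {g : V n → ℂ} (hg : Integrable g) {τ : V n → ℝ} (hτ : Measurable τ) :
    Measurable (fun p : V n × ℝ => ‖HH g τ p.1 p.2‖ₑ ^ 2) :=
  (continuous_HH hg hτ).measurable.enorm.pow_const 2

theorem measurableSet_floor_fibre {τ : V n → ℝ} (hτ : Measurable τ) (N : ℝ) (j : ℤ) :
    MeasurableSet ((fun x => ⌊N * τ x⌋) ⁻¹' {j}) :=
  (Int.measurable_floor.comp (hτ.const_mul N)) (measurableSet_singleton j)

theorem floor_sep {a b : ℝ} (hne : ⌊a⌋ ≠ ⌊b⌋) (hpar : ⌊a⌋ % 2 = ⌊b⌋ % 2) : 1 ≤ |a - b| := by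
  have h1 := Int.floor_le a
  have h2 := Int.lt_floor_add_one a
  have h3 := Int.floor_le b
  have h4 := Int.lt_floor_add_one b
  have h : ⌊a⌋ + 2 ≤ ⌊b⌋ ∨ ⌊b⌋ + 2 ≤ ⌊a⌋ := by omega
  rcases h with h | h
  · have : (⌊a⌋ : ℝ) + 2 ≤ ⌊b⌋ := by exact_mod_cast h
    rw [le_abs]; right; linarith
  · have : (⌊b⌋ : ℝ) + 2 ≤ ⌊a⌋ := by exact_mod_cast h
    rw [le_abs]; left; linarith

/-- orthogonality of the time windows against the majorant -/
theorem time_maj {ψ : ℝ → ℝ} (hψ : IsMaj ℝ ψ) {E : Set (V n)} (hE : MeasurableSet E)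
    (hfin : volume E ≠ ∞) {τ : V n → ℝ} (hτ : Measurable τ) {g : V n → ℂ} (hg : Adm E g)
    {N : ℝ} (s : Finset ℤ) (hs : ∀ x ∈ E, ⌊N * τ x⌋ ∈ s) (M : ℝ) :
    ∫⁻ ζ in closedBall (0 : V n) M, ∫⁻ v, ENNReal.ofReal (ψ v) *
        ‖HH g τ ζ (‖ζ‖ ^ 2 + 2 * N * v)‖ₑ ^ 2 ≤
      2 * (∫⁻ v, ENNReal.ofReal (ψ v)) *
        ∑ j ∈ s, Phi (E ∩ (fun x => ⌊N * τ x⌋) ⁻¹' {j}) τ M := by
  classical
  set ℓ : V n → ℤ := fun x => ⌊N * τ x⌋ with hℓ
  set G : ℤ → V n → ℂ := fun j => (ℓ ⁻¹' {j}).indicator g with hG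
  have hGi : ∀ j, Integrable (G j) := fun j =>
    (hg.integrable hE hfin).indicator (measurableSet_floor_fibre hτ N j)
  have htr : ∀ j ζ v, HH (G j) τ ζ (‖ζ‖ ^ 2 + 2 * N * v) =
      tr (fun x => G j x * ph (⟪x, ζ⟫ + τ x * ‖ζ‖ ^ 2)) (fun x => 2 * N * τ x) v := by
    intro j ζ v
    unfold HH tr
    congr 1; ext x
    rw [mul_assoc (G j x), ← ph_add]; congr 2
    simp only [RCLike.inner_apply, conj_trivial]; ring
  have hmeas : ∀ j, Measurable fun q : V n × ℝ => ENNReal.ofReal (ψ q.2) *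
      ‖HH (G j) τ q.1 (‖q.1‖ ^ 2 + 2 * N * q.2)‖ₑ ^ 2 := fun j =>
    (hψ.cont.measurable.comp measurable_snd).ennreal_ofReal.mul
      ((measurable_HH_sq (hGi j) hτ).comp
        (f := fun q : V n × ℝ => (q.1, ‖q.1‖ ^ 2 + 2 * N * q.2)) (by fun_prop))
  calc ∫⁻ ζ in closedBall (0 : V n) M, ∫⁻ v, ENNReal.ofReal (ψ v) *
        ‖HH g τ ζ (‖ζ‖ ^ 2 + 2 * N * v)‖ₑ ^ 2
      ≤ ∫⁻ ζ in closedBall (0 : V n) M, 2 * ∑ j ∈ s, ∫⁻ v, ENNReal.ofReal (ψ v) *
        ‖HH (G j) τ ζ (‖ζ‖ ^ 2 + 2 * N * v)‖ₑ ^ 2 := by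
        refine lintegral_mono fun ζ => ?_
        have h1 : ∀ v, HH g τ ζ (‖ζ‖ ^ 2 + 2 * N * v) =
            ∑ j ∈ s, HH (G j) τ ζ (‖ζ‖ ^ 2 + 2 * N * v) := by
          intro v
          rw [← HH_sum s G (fun j _ => hGi j) hτ, ← eq_sum_fibres hg ℓ s hs]
        simp_rw [h1, htr]
        have h2 := orth_colour hψ s
          (fun j x => G j x * ph (⟪x, ζ⟫ + τ x * ‖ζ‖ ^ 2))
          (fun j _ => integrable_mul_ph (hGi j) (measurable_phase hτ _ _))
          (θ := fun x => 2 * N * τ x) (hτ.const_mul _) (fun j : ℤ => decide (j % 2 = 0)) ?_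
        · simpa using h2
        · intro i _ j _ hne hcol x y hx hy
          have hx' : ℓ x = i := by
            by_contra h
            exact hx (by simp [hG, indicator_of_notMem (show x ∉ ℓ ⁻¹' {i} from h)])
          have hy' : ℓ y = j := by
            by_contra h
            exact hy (by simp [hG, indicator_of_notMem (show y ∉ ℓ ⁻¹' {j} from h)])
          have hpar : i % 2 = j % 2 := by
            have : i % 2 = 0 ↔ j % 2 = 0 := by simpa using hcol
            omega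
          have h3 := floor_sep (a := N * τ x) (b := N * τ y)
            (by change ℓ x ≠ ℓ y; rw [hx', hy']; exact hne)
            (by change ℓ x % 2 = ℓ y % 2; rw [hx', hy']; exact hpar)
          rw [Real.norm_eq_abs, show 2 * N * τ x - 2 * N * τ y = 2 * (N * τ x - N * τ y) by ring,
            abs_mul, abs_two]
          linarith
    _ = 2 * ∑ j ∈ s, ∫⁻ v, ENNReal.ofReal (ψ v) * ∫⁻ ζ in closedBall (0 : V n) M,
        ‖HH (G j) τ ζ (‖ζ‖ ^ 2 + 2 * N * v)‖ₑ ^ 2 := by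
        rw [lintegral_const_mul' _ _ (by norm_num),
          lintegral_finsetSum _ fun j _ => (hmeas j).lintegral_prod_right']
        congr 1
        refine Finset.sum_congr rfl fun j _ => ?_
        rw [lintegral_lintegral_swap (hmeas j).aemeasurable]
        refine lintegral_congr fun v => ?_
        exact lintegral_const_mul' (ENNReal.ofReal (ψ v)) _ ENNReal.ofReal_ne_top
    _ ≤ 2 * ∑ j ∈ s, ∫⁻ v, ENNReal.ofReal (ψ v) * Phi (E ∩ ℓ ⁻¹' {j}) τ M := by
        gcongr with j hj v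
        have := lintegral_HH_shift_le (hg.indicator (measurableSet_floor_fibre hτ N j)) hτ M 0
          (2 * N * v)
        simpa using this
    _ = _ := by
        rw [mul_assoc]
        congr 1
        rw [Finset.mul_sum]
        refine Finset.sum_congr rfl fun j _ => ?_
        rw [lintegral_mul_const _ hψ.cont.measurable.ennreal_ofReal]

/-- the one dimensional change of variables -/
theorem cov_one {ψ : ℝ → ℝ} (hψ : IsMaj ℝ ψ) (F : ℝ → ℝ≥0∞) {N a d : ℝ} (hN : 1 ≤ N) (hd : 1 ≤ d)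
    (ha : d - 1 / 6 ≤ |a|) (ha' : |a| ≤ 3 * N) :
    ∫⁻ η in Icc (-(1 / 6) : ℝ) (1 / 6), F (η ^ 2 - 2 * η * a) ≤
      ENNReal.ofReal (2 * N / d) * ∫⁻ v, ENNReal.ofReal (ψ v) * F (2 * N * v) := by
  have hder : ∀ η ∈ Icc (-(1 / 6) : ℝ) (1 / 6), HasDerivWithinAt (fun η : ℝ => η ^ 2 - 2 * η * a)
      (2 * η - 2 * a) (Icc (-(1 / 6) : ℝ) (1 / 6)) η := by
    intro η _
    have h1 : HasDerivAt (fun η : ℝ => η ^ 2 - 2 * η * a) (2 * η - 2 * a) η := by
      have := (hasDerivAt_pow 2 η).fun_sub (((hasDerivAt_id' η).const_mul 2).mul_const a)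
      simpa using this
    exact h1.hasDerivWithinAt
  have hinj : InjOn (fun η : ℝ => η ^ 2 - 2 * η * a) (Icc (-(1 / 6) : ℝ) (1 / 6)) := by
    intro x hx y hy hxy
    have h1 : (x - y) * (x + y - 2 * a) = 0 := by simp only at hxy; nlinarith
    rcases mul_eq_zero.1 h1 with h | h
    · linarith
    · exfalso
      have : |a| ≤ 1 / 6 := by rw [abs_le]; constructor <;> linarith [hx.1, hx.2, hy.1, hy.2]
      linarith
  have h1 := lintegral_image_eq_lintegral_abs_deriv_mul measurableSet_Icc hder hinj F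
  have h2 : ∫⁻ η in Icc (-(1 / 6) : ℝ) (1 / 6), F (η ^ 2 - 2 * η * a) ≤
      ENNReal.ofReal (1 / d) * ∫⁻ η in Icc (-(1 / 6) : ℝ) (1 / 6),
        ENNReal.ofReal |2 * η - 2 * a| * F (η ^ 2 - 2 * η * a) := by
    rw [← lintegral_const_mul' _ _ ENNReal.ofReal_ne_top]
    refine setLIntegral_mono' measurableSet_Icc fun η hη => ?_
    rw [← mul_assoc, ← ENNReal.ofReal_mul (by positivity)]
    refine le_mul_of_one_le_left' ?_
    rw [← ENNReal.ofReal_one]
    refine ENNReal.ofReal_le_ofReal ?_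
    have h3 : |η| ≤ 1 / 6 := abs_le.2 hη
    have h4 : |a| - |η| ≤ |η - a| := by rw [abs_sub_comm]; exact abs_sub_abs_le_abs_sub a η
    rw [show 2 * η - 2 * a = 2 * (η - a) by ring, abs_mul, abs_two, one_div_mul_eq_div,
      le_div_iff₀ (by linarith)]
    linarith
  have h3 : ∫⁻ u in (fun η : ℝ => η ^ 2 - 2 * η * a) '' Icc (-(1 / 6) : ℝ) (1 / 6), F u ≤
      ENNReal.ofReal (2 * N) * ∫⁻ v, ENNReal.ofReal (ψ v) * F (2 * N * v) := by
    have hsub : (fun η : ℝ => η ^ 2 - 2 * η * a) '' Icc (-(1 / 6) : ℝ) (1 / 6) ⊆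
        closedBall 0 (2 * N) := by
      rintro _ ⟨η, hη, rfl⟩
      have h3 : |η| ≤ 1 / 6 := abs_le.2 hη
      rw [mem_closedBall_zero_iff, Real.norm_eq_abs]
      refine (abs_sub _ _).trans ?_
      rw [abs_pow, abs_mul, abs_mul, abs_two]
      nlinarith [abs_nonneg η, abs_nonneg a]
    refine (lintegral_mono_set hsub).trans ?_
    rw [← lintegral_indicator measurableSet_closedBall,
      lintegral_smul_eq _ (show 0 < 2 * N by linarith)]
    simp only [Module.finrank_self, pow_one, smul_eq_mul]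
    gcongr with v
    by_cases hv : 2 * N * v ∈ closedBall (0 : ℝ) (2 * N)
    · rw [indicator_of_mem hv]
      refine le_mul_of_one_le_left' ?_
      rw [← ENNReal.ofReal_one]
      refine ENNReal.ofReal_le_ofReal (hψ.one_le v ?_)
      rw [mem_closedBall_zero_iff, norm_mul, Real.norm_of_nonneg (by linarith)] at hv
      nlinarith
    · rw [indicator_of_notMem hv]; exact zero_le
  refine h2.trans ?_
  rw [← h1, show 2 * N / d = 1 / d * (2 * N) by ring, ENNReal.ofReal_mul (by positivity),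
    mul_assoc]
  gcongr

theorem abs_coord_le (x : V n) (i : Fin n) : |x i| ≤ ‖x‖ := by
  simpa using PiLp.norm_apply_le x i

/-- time localisation in the cone around a coordinate axis -/
theorem timeLoc_cone {ψ : ℝ → ℝ} (hψ : IsMaj ℝ ψ) {E : Set (V n)} (hE : MeasurableSet E)
    (hEB : E ⊆ closedBall 0 1) {τ : V n → ℝ} (hτ : Measurable τ) {g : V n → ℂ} (hg : Adm E g)
    {N d : ℝ} (hN : 1 ≤ N) (hd : 1 ≤ d) (s : Finset ℤ) (hs : ∀ x ∈ E, ⌊N * τ x⌋ ∈ s) (i : Fin n) :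
    ∫⁻ ξ in {ξ : V n | ‖ξ‖ ≤ 2 * N ∧ d ≤ |ξ i|}, ‖H g τ ξ‖ₑ ^ 2 ≤
      12 * (ENNReal.ofReal (2 * N / d) * (2 * (∫⁻ v, ENNReal.ofReal (ψ v)) *
        ∑ j ∈ s, Phi (E ∩ (fun x => ⌊N * τ x⌋) ⁻¹' {j}) τ (3 * N))) := by
  have hfin : volume E ≠ ∞ := ((measure_mono hEB).trans_lt measure_closedBall_lt_top).ne
  obtain ⟨g', hg', hth⟩ := thick hE hfin hg (p := fun x => x i) (by fun_prop)
    (fun x hx => (abs_coord_le x i).trans (mem_closedBall_zero_iff.1 (hEB hx)))
  have hi : Integrable g' := hg'.integrable hE hfin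
  set e : V n := EuclideanSpace.single i 1 with he
  set A : Set (V n) := {ξ : V n | ‖ξ‖ ≤ 2 * N ∧ d ≤ |ξ i|} with hA
  set A' : Set (V n) := {ξ : V n | ‖ξ‖ ≤ 3 * N ∧ d - 1 / 6 ≤ |ξ i|} with hA'
  have mabs : Measurable fun ξ : V n => |ξ i| := by fun_prop
  have mA : MeasurableSet A :=
    (measurableSet_le measurable_norm measurable_const).inter
      (measurableSet_le measurable_const mabs)
  have mA' : MeasurableSet A' :=
    (measurableSet_le measurable_norm measurable_const).inter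
      (measurableSet_le measurable_const mabs)
  set F : V n × ℝ → ℝ≥0∞ := fun p => ‖HH g' τ p.1 p.2‖ₑ ^ 2 with hF
  have mF : Measurable F := measurable_HH_sq hi hτ
  have hnorm : ∀ (ζ : V n) (η : ℝ), ‖ζ - η • e‖ ^ 2 = ‖ζ‖ ^ 2 + (η ^ 2 - 2 * η * ζ i) := by
    intro ζ η
    rw [norm_sub_sq_real, inner_smul_right, norm_smul, he, EuclideanSpace.inner_single_right]
    simp; ring
  calc ∫⁻ ξ in A, ‖H g τ ξ‖ₑ ^ 2
      ≤ ∫⁻ ξ in A, 12 * ∫⁻ η in Icc (-(1 / 6) : ℝ) (1 / 6), F (ξ + η • e, ‖ξ‖ ^ 2) := by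
        refine lintegral_mono fun ξ => ?_
        refine (hth _ (measurable_phase hτ ξ (‖ξ‖ ^ 2))).trans (le_of_eq ?_)
        congr 1
        refine lintegral_congr fun η => ?_
        simp only [hF, HH]
        congr 3; ext x; congr 2
        rw [inner_add_right, inner_smul_right, he, EuclideanSpace.inner_single_right]
        simp; ring
    _ = 12 * ∫⁻ η in Icc (-(1 / 6) : ℝ) (1 / 6), ∫⁻ ξ in A, F (ξ + η • e, ‖ξ‖ ^ 2) := by
        rw [lintegral_const_mul' _ _ (by norm_num), lintegral_lintegral_swap]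
        exact (mF.comp (f := fun q : V n × ℝ => (q.1 + q.2 • e, ‖q.1‖ ^ 2))
          (by fun_prop)).aemeasurable
    _ ≤ 12 * ∫⁻ η in Icc (-(1 / 6) : ℝ) (1 / 6), ∫⁻ ζ in A',
          F (ζ, ‖ζ‖ ^ 2 + (η ^ 2 - 2 * η * ζ i)) := by
        gcongr 12 * ?_
        refine setLIntegral_mono' measurableSet_Icc fun η hη => ?_
        have h3 : |η| ≤ 1 / 6 := abs_le.2 hη
        rw [← lintegral_indicator mA, ← lintegral_indicator mA',
          ← lintegral_sub_right_eq_self _ (η • e)]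
        refine lintegral_mono fun ζ => ?_
        by_cases hζ : ζ - η • e ∈ A
        · have h4 : ζ ∈ A' := by
            obtain ⟨h5, h6⟩ := hζ
            have h7 : ‖η • e‖ ≤ 1 / 6 := by rw [norm_smul, he]; simpa using h3
            have h8 : ‖ζ‖ ≤ ‖ζ - η • e‖ + ‖η • e‖ := by
              simpa using norm_add_le (ζ - η • e) (η • e)
            have h9 : (ζ - η • e) i = ζ i - η := by simp [he]
            rw [h9] at h6
            exact ⟨by linarith, by linarith [abs_sub (ζ i) η]⟩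
          rw [indicator_of_mem hζ, indicator_of_mem h4, sub_add_cancel, hnorm]
        · rw [indicator_of_notMem hζ]; exact zero_le
    _ = 12 * ∫⁻ ζ in A', ∫⁻ η in Icc (-(1 / 6) : ℝ) (1 / 6),
          F (ζ, ‖ζ‖ ^ 2 + (η ^ 2 - 2 * η * ζ i)) := by
        rw [lintegral_lintegral_swap]
        exact (mF.comp (f := fun q : ℝ × V n => (q.2, ‖q.2‖ ^ 2 + (q.1 ^ 2 - 2 * q.1 * q.2 i)))
          (by fun_prop)).aemeasurable
    _ ≤ 12 * ∫⁻ ζ in A', ENNReal.ofReal (2 * N / d) *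
          ∫⁻ v, ENNReal.ofReal (ψ v) * F (ζ, ‖ζ‖ ^ 2 + 2 * N * v) := by
        gcongr 12 * ?_
        refine setLIntegral_mono' mA' fun ζ hζ => ?_
        exact cov_one hψ (fun u => F (ζ, ‖ζ‖ ^ 2 + u)) hN hd hζ.2 ((abs_coord_le ζ i).trans hζ.1)
    _ ≤ _ := by
        rw [lintegral_const_mul' _ _ ENNReal.ofReal_ne_top]
        gcongr
        refine le_trans (lintegral_mono_set fun ζ hζ => mem_closedBall_zero_iff.2 hζ.1) ?_
        exact time_maj hψ hE hfin hτ hg' s hs (3 * N)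

/-- **Time localisation.** -/
theorem timeLoc (n : ℕ) : ∃ C : ℝ≥0∞, C ≠ ∞ ∧ ∀ N : ℝ, 1 ≤ N → (n : ℝ) ≤ N →
    ∀ E : Set (V n), MeasurableSet E → E ⊆ closedBall 0 1 → ∀ τ : V n → ℝ, Measurable τ →
    ∀ g : V n → ℂ, Adm E g → ∀ s : Finset ℤ, (∀ x ∈ E, ⌊N * τ x⌋ ∈ s) →
      ∫⁻ ξ in {ξ : V n | N ≤ ‖ξ‖ ∧ ‖ξ‖ ≤ 2 * N}, ‖H g τ ξ‖ₑ ^ 2 ≤
        C * ∑ j ∈ s, Phi (E ∩ (fun x => ⌊N * τ x⌋) ⁻¹' {j}) τ (3 * N) := by
  obtain ⟨ψ, hψ⟩ := exists_isMaj ℝ
  have hΨ : ∫⁻ v, ENNReal.ofReal (ψ v) ≠ ∞ := hψ.int.lintegral_lt_top.ne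
  refine ⟨n * (12 * (ENNReal.ofReal (2 * n) * (2 * ∫⁻ v, ENNReal.ofReal (ψ v)))), ?_,
    fun N hN hnN E hE hEB τ hτ g hg s hs => ?_⟩
  · finiteness
  have hsub : {ξ : V n | N ≤ ‖ξ‖ ∧ ‖ξ‖ ≤ 2 * N} ⊆
      ⋃ i : Fin n, {ξ : V n | ‖ξ‖ ≤ 2 * N ∧ N / n ≤ |ξ i|} := by
    intro ξ hξ
    by_contra hcon
    simp only [mem_iUnion, mem_setOf_eq, not_exists, not_and, not_le] at hcon
    have h1 : ∀ i, |ξ i| < N / n := fun i => hcon i hξ.2
    rcases Nat.eq_zero_or_pos n with h0 | h0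
    · subst h0
      have : ξ = 0 := Subsingleton.elim _ _
      have h2 := hξ.1
      rw [this, norm_zero] at h2; linarith
    have hn : (1 : ℝ) ≤ n := by exact_mod_cast h0
    have h2 : ‖ξ‖ ^ 2 < ∑ _i : Fin n, (N / n) ^ 2 := by
      rw [EuclideanSpace.real_norm_sq_eq]
      have : Nonempty (Fin n) := ⟨⟨0, h0⟩⟩
      refine Finset.sum_lt_sum_of_nonempty Finset.univ_nonempty fun i _ => ?_
      rw [← sq_abs]
      exact pow_lt_pow_left₀ (h1 i) (abs_nonneg _) two_ne_zero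
    simp only [Finset.sum_const, Finset.card_univ, Fintype.card_fin, nsmul_eq_mul] at h2
    have h3 : (n : ℝ) * (N / n) ^ 2 ≤ N ^ 2 := by
      rw [div_pow, ← mul_div_assoc, div_le_iff₀ (by positivity)]
      nlinarith [sq_nonneg N, mul_nonneg (sq_nonneg N) (by linarith : (0 : ℝ) ≤ n)]
    have h4 : N ^ 2 ≤ ‖ξ‖ ^ 2 := pow_le_pow_left₀ (by linarith) hξ.1 2
    linarith
  refine (lintegral_mono_set hsub).trans ((lintegral_iUnion_le _ _).trans ?_)
  rw [tsum_fintype]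
  rcases Nat.eq_zero_or_pos n with h0 | h0
  · subst h0; simp
  have hn : (0 : ℝ) < n := by exact_mod_cast h0
  refine (Finset.sum_le_sum fun i _ => timeLoc_cone hψ hE hEB hτ hg hN
    ((one_le_div hn).2 hnN) s hs i).trans (le_of_eq ?_)
  have : 2 * N / (N / n) = 2 * n := by field_simp
  simp only [Finset.sum_const, Finset.card_univ, Fintype.card_fin, nsmul_eq_mul, this, mul_assoc]

end Crest.Agent.N76.Red
end

-- ▼ part N76/Red/SpaceLoc
section

/-! # Row 76: localisation in space for a short time window (helper14). -/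

set_option autoImplicit false

open MeasureTheory Set Metric
open scoped ENNReal RealInnerProductSpace

namespace Crest.Agent.N76.Red

variable {n : ℕ}

/-- a neighbourhood of the paraboloid -/
def Par (n : ℕ) (M a : ℝ) : Set (V n × ℝ) := {p | ‖p.1‖ ≤ M ∧ |p.2 - ‖p.1‖ ^ 2| ≤ a}

theorem measurableSet_Par (M a : ℝ) : MeasurableSet (Par n M a) := by
  have h1 : Measurable fun p : V n × ℝ => ‖p.1‖ := by fun_prop
  have h2 : Measurable fun p : V n × ℝ => |p.2 - ‖p.1‖ ^ 2| := by fun_prop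
  exact (measurableSet_le h1 measurable_const).inter (measurableSet_le h2 measurable_const)

theorem lintegral_Par {F : V n × ℝ → ℝ≥0∞} (hF : Measurable F) (M a : ℝ) :
    ∫⁻ p, (Par n M a).indicator F p =
      ∫⁻ ξ in closedBall (0 : V n) M, ∫⁻ u in Icc (-a) a, F (ξ, ‖ξ‖ ^ 2 + u) := by
  rw [Measure.volume_eq_prod, lintegral_prod _ (hF.indicator (measurableSet_Par M a)).aemeasurable,
    ← lintegral_indicator measurableSet_closedBall]
  refine lintegral_congr fun ξ => ?_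
  by_cases hξ : ξ ∈ closedBall (0 : V n) M
  · rw [indicator_of_mem hξ, ← lintegral_indicator measurableSet_Icc,
      ← lintegral_add_left_eq_self _ (‖ξ‖ ^ 2)]
    refine lintegral_congr fun u => ?_
    by_cases hu : u ∈ Icc (-a) a
    · rw [indicator_of_mem hu, indicator_of_mem]
      exact ⟨mem_closedBall_zero_iff.1 hξ, by simpa using abs_le.2 hu⟩
    · rw [indicator_of_notMem hu, indicator_of_notMem]
      intro h
      exact hu (abs_le.1 (by simpa using h.2))
  · rw [indicator_of_notMem hξ]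
    refine (lintegral_congr fun u => ?_).trans lintegral_zero
    exact indicator_of_notMem (fun h => hξ (mem_closedBall_zero_iff.2 h.1)) _

/-- index of the cube of side `ρ` -/
noncomputable def cube (ρ : ℝ) (x : V n) : Fin n → ℤ := fun i => ⌊ρ⁻¹ * x i⌋

theorem measurableSet_cube (ρ : ℝ) (q : Fin n → ℤ) :
    MeasurableSet (cube (n := n) ρ ⁻¹' {q}) := by
  have : Measurable (cube (n := n) ρ) :=
    measurable_pi_lambda _ fun i => Int.measurable_floor.comp (by fun_prop)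
  exact this (measurableSet_singleton q)

theorem space_maj {ψ : V n → ℝ} (hψ : IsMaj (V n) ψ) {E : Set (V n)} (hE : MeasurableSet E)
    (hfin : volume E ≠ ∞) {τ : V n → ℝ} (hτ : Measurable τ) {g : V n → ℂ} (hg : Adm E g)
    (ρ : ℝ) (s : Finset (Fin n → ℤ)) (hs : ∀ x ∈ E, cube ρ x ∈ s) (ζ : V n) (σ : ℝ) :
    ∫⁻ v, ENNReal.ofReal (ψ v) * ‖HH g τ (ζ + ρ⁻¹ • v) σ‖ₑ ^ 2 ≤
      2 ^ n * ∑ q ∈ s, ∫⁻ v, ENNReal.ofReal (ψ v) *
        ‖HH ((cube ρ ⁻¹' {q}).indicator g) τ (ζ + ρ⁻¹ • v) σ‖ₑ ^ 2 := by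
  classical
  set G : (Fin n → ℤ) → V n → ℂ := fun j => (cube ρ ⁻¹' {j}).indicator g with hG
  have hGi : ∀ j, Integrable (G j) := fun j =>
    (hg.integrable hE hfin).indicator (measurableSet_cube ρ j)
  have htr : ∀ j v, HH (G j) τ (ζ + ρ⁻¹ • v) σ =
      tr (fun x => G j x * ph (⟪x, ζ⟫ + τ x * σ)) (fun x => ρ⁻¹ • x) v := by
    intro j v
    unfold HH tr
    congr 1; ext x
    rw [mul_assoc (G j x), ← ph_add]; congr 2
    rw [inner_add_right, inner_smul_right, inner_smul_left]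
    simp only [conj_trivial]; ring
  have h1 : ∀ v, HH g τ (ζ + ρ⁻¹ • v) σ = ∑ j ∈ s, HH (G j) τ (ζ + ρ⁻¹ • v) σ := by
    intro v
    rw [← HH_sum s G (fun j _ => hGi j) hτ, ← eq_sum_fibres hg (cube ρ) s hs]
  change _ ≤ 2 ^ n * ∑ q ∈ s, ∫⁻ v, ENNReal.ofReal (ψ v) * ‖HH (G q) τ (ζ + ρ⁻¹ • v) σ‖ₑ ^ 2
  simp_rw [h1, htr]
  have h2 := orth_colour hψ s (fun j x => G j x * ph (⟪x, ζ⟫ + τ x * σ))
    (fun j _ => integrable_mul_ph (hGi j) (measurable_phase hτ _ _))
    (θ := fun x => ρ⁻¹ • x) (by fun_prop)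
    (fun (j : Fin n → ℤ) (i : Fin n) => decide (j i % 2 = 0)) ?_
  · simpa using h2
  · intro i _ j _ hne hcol x y hx hy
    have hx' : cube ρ x = i := by
      by_contra h
      exact hx (by simp [hG, indicator_of_notMem (show x ∉ cube ρ ⁻¹' {i} from h)])
    have hy' : cube ρ y = j := by
      by_contra h
      exact hy (by simp [hG, indicator_of_notMem (show y ∉ cube ρ ⁻¹' {j} from h)])
    obtain ⟨k, hk⟩ := Function.ne_iff.1 hne
    have hpar : i k % 2 = j k % 2 := by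
      have : i k % 2 = 0 ↔ j k % 2 = 0 := by simpa using congrFun hcol k
      omega
    have h3 := floor_sep (a := ρ⁻¹ * x k) (b := ρ⁻¹ * y k)
      (by change cube ρ x k ≠ cube ρ y k; rw [hx', hy']; exact hk)
      (by change cube ρ x k % 2 = cube ρ y k % 2; rw [hx', hy']; exact hpar)
    refine h3.trans (le_trans (le_of_eq ?_) (abs_coord_le (ρ⁻¹ • x - ρ⁻¹ • y) k))
    simp

theorem par_maj {ψ : V n → ℝ} (hψ : IsMaj (V n) ψ) {ρ : ℝ} (hρ : 1 ≤ ρ) {p : V n × ℝ}
    (hp : p ∈ Par n 1 ρ⁻¹) :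
    volume (closedBall (0 : V n) 1) ≤ ∫⁻ v, ENNReal.ofReal (ψ v) *
      (Par n 2 (4 * ρ⁻¹)).indicator 1 (p - (ρ⁻¹ • v, 0)) := by
  rw [← lintegral_indicator_one measurableSet_closedBall]
  refine lintegral_mono fun v => ?_
  by_cases hv : v ∈ closedBall (0 : V n) 1
  · have hv' := mem_closedBall_zero_iff.1 hv
    have hr0 : 0 < ρ⁻¹ := by positivity
    have hr1 : ρ⁻¹ ≤ 1 := inv_le_one_of_one_le₀ hρ
    have hw : ‖ρ⁻¹ • v‖ ≤ ρ⁻¹ := by
      rw [norm_smul, Real.norm_of_nonneg hr0.le]; nlinarith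
    have hmem : p - (ρ⁻¹ • v, 0) ∈ Par n 2 (4 * ρ⁻¹) := by
      obtain ⟨h1, h2⟩ := hp
      set w := ρ⁻¹ • v
      have h3 := norm_sub_le p.1 w
      have h4 : |⟪p.1, w⟫| ≤ ρ⁻¹ :=
        (abs_real_inner_le_norm _ _).trans (by nlinarith [norm_nonneg p.1, norm_nonneg w])
      have h5 : ‖w‖ ^ 2 ≤ ρ⁻¹ := by nlinarith [norm_nonneg w]
      refine ⟨by simp only [Prod.fst_sub]; linarith, ?_⟩
      simp only [Prod.fst_sub, Prod.snd_sub, sub_zero]
      rw [norm_sub_sq_real]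
      rw [abs_le] at h2 h4 ⊢
      constructor <;> nlinarith [sq_nonneg ‖w‖]
    rw [indicator_of_mem hv, indicator_of_mem hmem, Pi.one_apply, Pi.one_apply, mul_one,
      ← ENNReal.ofReal_one]
    exact ENNReal.ofReal_le_ofReal (hψ.one_le v hv')
  · rw [indicator_of_notMem hv]; exact zero_le

/-- **Space localisation.** -/
theorem spaceLoc (n : ℕ) : ∃ C : ℝ≥0∞, C ≠ ∞ ∧ ∀ ρ : ℝ, 1 ≤ ρ →
    ∀ E : Set (V n), MeasurableSet E → volume E ≠ ∞ → ∀ τ : V n → ℝ, Measurable τ →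
    (∀ x ∈ E, |τ x| ≤ ρ) → ∀ s : Finset (Fin n → ℤ), (∀ x ∈ E, cube ρ x ∈ s) →
      Phi E τ 1 ≤ C * ∑ q ∈ s, Phi (E ∩ cube ρ ⁻¹' {q}) τ 2 := by
  obtain ⟨ψ, hψ⟩ := exists_isMaj (V n)
  have hΨ : ∫⁻ v, ENNReal.ofReal (ψ v) ≠ ∞ := hψ.int.lintegral_lt_top.ne
  set b : ℝ≥0∞ := volume (closedBall (0 : V n) 1) with hb
  have hb0 : b ≠ 0 := (measure_closedBall_pos volume _ one_pos).ne'
  have hbt : b ≠ ∞ := measure_closedBall_lt_top.ne
  refine ⟨b⁻¹ * (12 * (2 ^ n * ((∫⁻ v, ENNReal.ofReal (ψ v)) * 8))), ?_,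
    fun ρ hρ E hE hfin τ hτ hτρ s hs => Phi_le fun g hg => ?_⟩
  · have : b⁻¹ ≠ ∞ := ENNReal.inv_ne_top.2 hb0
    finiteness
  have hρ0 : 0 < ρ := by linarith
  obtain ⟨g', hg', hth⟩ := thick hE hfin hg (p := fun x => ρ⁻¹ * τ x) (hτ.const_mul _)
    (fun x hx => by
      rw [abs_mul, abs_of_pos (inv_pos.2 hρ0), inv_mul_le_iff₀ hρ0, mul_one]; exact hτρ x hx)
  have hi : Integrable g' := hg'.integrable hE hfin
  set F : V n × ℝ → ℝ≥0∞ := fun p => ‖HH g' τ p.1 p.2‖ₑ ^ 2 with hF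
  have mF : Measurable F := measurable_HH_sq hi hτ
  set G : (Fin n → ℤ) → V n → ℂ := fun j => (cube ρ ⁻¹' {j}).indicator g' with hG
  have hGi : ∀ j, Integrable (G j) := fun j => hi.indicator (measurableSet_cube ρ j)
  have mψ : Measurable fun v => ENNReal.ofReal (ψ v) := hψ.cont.measurable.ennreal_ofReal
  have mS' := measurableSet_Par (n := n) 2 (4 * ρ⁻¹)
  have mG : ∀ j, Measurable fun q : (V n × ℝ) × V n => ENNReal.ofReal (ψ q.2) *
      ‖HH (G j) τ (q.1.1 + ρ⁻¹ • q.2) q.1.2‖ₑ ^ 2 := fun j =>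
    (mψ.comp measurable_snd).mul ((measurable_HH_sq (hGi j) hτ).comp
      (f := fun q : (V n × ℝ) × V n => (q.1.1 + ρ⁻¹ • q.2, q.1.2)) (by fun_prop))
  -- step 1: thickening
  have s1 : ∫⁻ ξ in closedBall (0 : V n) 1, ‖H g τ ξ‖ₑ ^ 2 ≤
      12 * (ENNReal.ofReal ρ * ∫⁻ p, (Par n 1 ρ⁻¹).indicator F p) := by
    rw [lintegral_Par mF, ← lintegral_const_mul' _ _ ENNReal.ofReal_ne_top,
      ← lintegral_const_mul' _ _ (by norm_num)]
    refine lintegral_mono fun ξ => ?_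
    refine (hth _ (measurable_phase hτ ξ (‖ξ‖ ^ 2))).trans ?_
    gcongr
    rw [← lintegral_indicator measurableSet_Icc, ← lintegral_indicator measurableSet_Icc,
      lintegral_smul_eq _ hρ0]
    simp only [Module.finrank_self, pow_one, smul_eq_mul]
    gcongr with u
    by_cases hu : ρ * u ∈ Icc (-(1 / 6) : ℝ) (1 / 6)
    · have hu' : u ∈ Icc (-ρ⁻¹) ρ⁻¹ := by
        have h1 : |ρ * u| ≤ 1 / 6 := abs_le.2 hu
        rw [abs_mul, abs_of_pos hρ0] at h1
        refine abs_le.1 ?_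
        rw [← one_div, le_div_iff₀ hρ0]; linarith
      rw [indicator_of_mem hu, indicator_of_mem hu']
      refine le_of_eq ?_
      simp only [hF, HH]
      congr 3; ext x; congr 2; field_simp; ring
    · rw [indicator_of_notMem hu]; exact zero_le
  -- step 2: majorant
  have : (volume : Measure (V n × ℝ)).IsAddRightInvariant := by
    rw [Measure.volume_eq_prod]; infer_instance
  have s2 : b * ∫⁻ p, (Par n 1 ρ⁻¹).indicator F p ≤
      ∫⁻ p in Par n 2 (4 * ρ⁻¹), ∫⁻ v, ENNReal.ofReal (ψ v) * F (p + (ρ⁻¹ • v, 0)) := by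
    have m1 : Measurable fun q : (V n × ℝ) × V n => ENNReal.ofReal (ψ q.2) *
        (Par n 2 (4 * ρ⁻¹)).indicator 1 (q.1 - (ρ⁻¹ • q.2, 0)) * F q.1 :=
      ((mψ.comp measurable_snd).mul ((measurable_one.indicator mS').comp (by fun_prop))).mul
        (mF.comp measurable_fst)
    have m2 : Measurable fun q : (V n × ℝ) × V n =>
        ENNReal.ofReal (ψ q.2) * F (q.1 + (ρ⁻¹ • q.2, 0)) :=
      (mψ.comp measurable_snd).mul (mF.comp (by fun_prop))
    calc b * ∫⁻ p, (Par n 1 ρ⁻¹).indicator F p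
        ≤ ∫⁻ p, ∫⁻ v, ENNReal.ofReal (ψ v) *
            (Par n 2 (4 * ρ⁻¹)).indicator 1 (p - (ρ⁻¹ • v, 0)) * F p := by
          rw [← lintegral_const_mul' _ _ hbt]
          refine lintegral_mono fun p => ?_
          by_cases hp : p ∈ Par n 1 ρ⁻¹
          · rw [indicator_of_mem hp, lintegral_mul_const' _ _
              (ENNReal.pow_ne_top enorm_ne_top)]
            gcongr
            exact par_maj hψ hρ hp
          · rw [indicator_of_notMem hp, mul_zero]; exact zero_le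
      _ = ∫⁻ v, ∫⁻ p in Par n 2 (4 * ρ⁻¹), ENNReal.ofReal (ψ v) * F (p + (ρ⁻¹ • v, 0)) := by
          rw [lintegral_lintegral_swap m1.aemeasurable]
          refine lintegral_congr fun v => ?_
          rw [← lintegral_indicator mS', ← lintegral_add_right_eq_self _ (ρ⁻¹ • v, (0 : ℝ))]
          refine lintegral_congr fun p => ?_
          simp only [add_sub_cancel_right]
          by_cases hp : p ∈ Par n 2 (4 * ρ⁻¹)
          · simp [indicator_of_mem hp]
          · simp [indicator_of_notMem hp]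
      _ = _ := (lintegral_lintegral_swap m2.aemeasurable).symm
  -- step 3: orthogonality and return to the paraboloid
  have s3 : ∫⁻ p in Par n 2 (4 * ρ⁻¹), ∫⁻ v, ENNReal.ofReal (ψ v) * F (p + (ρ⁻¹ • v, 0)) ≤
      2 ^ n * ((∫⁻ v, ENNReal.ofReal (ψ v)) * (ENNReal.ofReal (8 * ρ⁻¹) *
        ∑ q ∈ s, Phi (E ∩ cube ρ ⁻¹' {q}) τ 2)) := by
    calc ∫⁻ p in Par n 2 (4 * ρ⁻¹), ∫⁻ v, ENNReal.ofReal (ψ v) * F (p + (ρ⁻¹ • v, 0))
        ≤ ∫⁻ p in Par n 2 (4 * ρ⁻¹), 2 ^ n * ∑ q ∈ s, ∫⁻ v, ENNReal.ofReal (ψ v) *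
            ‖HH (G q) τ (p.1 + ρ⁻¹ • v) p.2‖ₑ ^ 2 := by
          refine lintegral_mono fun p => ?_
          have := space_maj hψ hE hfin hτ hg' ρ s hs p.1 p.2
          simpa [hF] using this
      _ = 2 ^ n * ∑ q ∈ s, ∫⁻ v, ENNReal.ofReal (ψ v) * ∫⁻ p in Par n 2 (4 * ρ⁻¹),
            ‖HH (G q) τ (p.1 + ρ⁻¹ • v) p.2‖ₑ ^ 2 := by
          rw [lintegral_const_mul' _ _ (by finiteness),
            lintegral_finsetSum _ fun j _ => (mG j).lintegral_prod_right']
          congr 1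
          refine Finset.sum_congr rfl fun j _ => ?_
          rw [lintegral_lintegral_swap (mG j).aemeasurable]
          refine lintegral_congr fun v => ?_
          exact lintegral_const_mul' (ENNReal.ofReal (ψ v)) _ ENNReal.ofReal_ne_top
      _ ≤ 2 ^ n * ∑ q ∈ s, ∫⁻ v, ENNReal.ofReal (ψ v) * (ENNReal.ofReal (8 * ρ⁻¹) *
            Phi (E ∩ cube ρ ⁻¹' {q}) τ 2) := by
          gcongr with q hq v
          have mq : Measurable fun p : V n × ℝ => ‖HH (G q) τ (p.1 + ρ⁻¹ • v) p.2‖ₑ ^ 2 :=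
            (measurable_HH_sq (hGi q) hτ).comp
              (f := fun p : V n × ℝ => (p.1 + ρ⁻¹ • v, p.2)) (by fun_prop)
          rw [← lintegral_indicator mS', lintegral_Par mq, lintegral_lintegral_swap]
          · calc _ ≤ ∫⁻ _ in Icc (-(4 * ρ⁻¹)) (4 * ρ⁻¹), Phi (E ∩ cube ρ ⁻¹' {q}) τ 2 :=
                  lintegral_mono fun u => lintegral_HH_shift_le
                    (hg'.indicator (measurableSet_cube ρ q)) hτ 2 (ρ⁻¹ • v) u
              _ = _ := by
                  rw [setLIntegral_const, Real.volume_Icc, mul_comm]; congr 2; ring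
          · exact (mq.comp (f := fun q : V n × ℝ => (q.1, ‖q.1‖ ^ 2 + q.2))
              (by fun_prop)).aemeasurable
      _ = _ := by
          congr 1
          rw [Finset.mul_sum, Finset.mul_sum]
          refine Finset.sum_congr rfl fun j _ => ?_
          rw [lintegral_mul_const _ mψ]
  have s4 : ∫⁻ p, (Par n 1 ρ⁻¹).indicator F p ≤ b⁻¹ * (2 ^ n * ((∫⁻ v, ENNReal.ofReal (ψ v)) *
      (ENNReal.ofReal (8 * ρ⁻¹) * ∑ q ∈ s, Phi (E ∩ cube ρ ⁻¹' {q}) τ 2))) := by
    calc _ = b⁻¹ * (b * ∫⁻ p, (Par n 1 ρ⁻¹).indicator F p) := by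
          rw [← mul_assoc, ENNReal.inv_mul_cancel hb0 hbt, one_mul]
      _ ≤ _ := mul_le_mul_right (s2.trans s3) _
  refine s1.trans ((mul_le_mul_right (mul_le_mul_right s4 _) _).trans (le_of_eq ?_))
  have h8 : ENNReal.ofReal ρ * ENNReal.ofReal (8 * ρ⁻¹) = 8 := by
    rw [← ENNReal.ofReal_mul hρ0.le, show ρ * (8 * ρ⁻¹) = 8 by field_simp]; norm_num
  rw [← h8]; ring

end Crest.Agent.N76.Red
end

-- ▼ part N76/Red/StepB
section

/-! # Row 76: window gain and small set gain at one frequency (helper14). -/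

set_option autoImplicit false

open MeasureTheory Set Metric
open scoped ENNReal RealInnerProductSpace

namespace Crest.Agent.N76.Red

variable {n : ℕ}

/-- the conclusion of step A -/
def SA (n : ℕ) (c C : ℝ) : Prop := ∀ R : ℝ, 1 ≤ R →
    ∀ E : Set (V n), MeasurableSet E → E ⊆ closedBall 0 R → ∀ τ : V n → ℝ, Measurable τ →
    (∀ x ∈ E, |τ x| ≤ R) → Phi E τ 1 ≤
      ENNReal.ofReal (C * R ^ ((n : ℝ) / (n + 1)) * (volume.real E / R ^ n) ^ c * volume.real E)

theorem sum_vol_fibres_le {ι : Type*} {E : Set (V n)} (hE : MeasurableSet E) (ℓ : V n → ι)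
    (hℓ : ∀ i, MeasurableSet (ℓ ⁻¹' {i})) (s : Finset ι) :
    ∑ i ∈ s, volume (E ∩ ℓ ⁻¹' {i}) ≤ volume E := by
  rw [← measure_biUnion_finset _ fun i _ => hE.inter (hℓ i)]
  · exact measure_mono (iUnion₂_subset fun i _ => inter_subset_left)
  · intro i _ j _ hij
    refine Set.disjoint_left.2 fun x hx hx' => hij ?_
    rw [← mem_singleton_iff.1 hx.2, ← mem_singleton_iff.1 hx'.2]

theorem mem_sE {E : Set (V n)} {x₀ y : V n} {ρ : ℝ} (hρ : 0 < ρ) (hy : y ∈ sE E x₀ ρ) :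
    ∃ x ∈ E, x = x₀ + ρ⁻¹ • y ∧ ‖y‖ = ρ * ‖x - x₀‖ := by
  refine ⟨_, hy, rfl, ?_⟩
  rw [add_sub_cancel_left, norm_smul, Real.norm_of_nonneg (inv_pos.2 hρ).le]
  field_simp

theorem SA.scaled {c C : ℝ} (h : SA n c C) (hC : 0 ≤ C) {E : Set (V n)} (hE : MeasurableSet E)
    {τ : V n → ℝ} (hτ : Measurable τ) (x₀ : V n) (τ₀ : ℝ) {ρ R : ℝ} (hρ : 0 < ρ) (hR : 1 ≤ R)
    (hx : ∀ x ∈ E, ρ * ‖x - x₀‖ ≤ R ∧ ρ ^ 2 * |τ x - τ₀| ≤ R) :
    Phi E τ ρ ≤ ENNReal.ofReal (C * R ^ ((n : ℝ) / (n + 1)) *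
      (ρ ^ n * volume.real E / R ^ n) ^ c * volume.real E) := by
  have h1 := Phi_scale E τ x₀ τ₀ hρ 1
  rw [mul_one] at h1
  have h2 := h R hR (sE E x₀ ρ) (measurableSet_sE hE _ _) (fun y hy => by
      obtain ⟨x, hxE, -, h3⟩ := mem_sE hρ hy
      rw [mem_closedBall_zero_iff, h3]; exact (hx x hxE).1) _ (measurable_sT hτ x₀ τ₀ ρ)
    (fun y hy => by
      obtain ⟨x, hxE, rfl, -⟩ := mem_sE hρ hy
      rw [sT, abs_mul, abs_of_pos (pow_pos hρ 2)]; exact (hx _ hxE).2)
  have h3 : volume.real (sE E x₀ ρ) = ρ ^ n * volume.real E := by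
    rw [measureReal_def, volume_sE E x₀ hρ, ENNReal.toReal_mul,
      ENNReal.toReal_ofReal (by positivity), measureReal_def]
  refine h1.trans ((mul_le_mul_right h2 _).trans (le_of_eq ?_))
  rw [h3, ← ENNReal.ofReal_mul (by positivity)]
  congr 1; field_simp

theorem SA.scaled' {c C : ℝ} (h : SA n c C) (hc : 0 ≤ c) (hC : 0 ≤ C) {E : Set (V n)}
    (hE : MeasurableSet E)
    {τ : V n → ℝ} (hτ : Measurable τ) (x₀ : V n) (τ₀ : ℝ) {ρ R : ℝ} (hρ : 0 < ρ) (hR : 1 ≤ R)
    (hx : ∀ x ∈ E, ρ * ‖x - x₀‖ ≤ R ∧ ρ ^ 2 * |τ x - τ₀| ≤ R) :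
    Phi E τ ρ ≤ ENNReal.ofReal (C * volume.real (closedBall (0 : V n) 1) ^ c *
      R ^ ((n : ℝ) / (n + 1))) * volume E := by
  have hR0 : 0 < R := by linarith
  have hsub : E ⊆ closedBall x₀ (R / ρ) := fun x hxE => by
    rw [mem_closedBall, dist_eq_norm, le_div_iff₀ hρ, mul_comm]; exact (hx x hxE).1
  have hfin : volume E ≠ ∞ := ((measure_mono hsub).trans_lt measure_closedBall_lt_top).ne
  have h1 : volume.real E ≤ (R / ρ) ^ n * volume.real (closedBall (0 : V n) 1) := by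
    have := Measure.addHaar_real_closedBall' (volume : Measure (V n)) x₀ (r := R / ρ)
      (by positivity)
    simp only [finrank_euclideanSpace, Fintype.card_fin] at this
    rw [← this]
    exact measureReal_mono hsub measure_closedBall_lt_top.ne
  have h2 : ρ ^ n * volume.real E / R ^ n ≤ volume.real (closedBall (0 : V n) 1) := by
    rw [div_le_iff₀ (by positivity)]
    calc ρ ^ n * volume.real E ≤ ρ ^ n * ((R / ρ) ^ n * volume.real (closedBall (0 : V n) 1)) := by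
          gcongr
      _ = _ := by rw [div_pow]; field_simp
  refine (h.scaled hC hE hτ x₀ τ₀ hρ hR hx).trans ?_
  rw [← ofReal_measureReal hfin, ← ENNReal.ofReal_mul (by positivity)]
  refine ENNReal.ofReal_le_ofReal ?_
  have h0 : 0 ≤ volume.real E := measureReal_nonneg
  calc C * R ^ ((n : ℝ) / (n + 1)) * (ρ ^ n * volume.real E / R ^ n) ^ c * volume.real E
      ≤ C * R ^ ((n : ℝ) / (n + 1)) * volume.real (closedBall (0 : V n) 1) ^ c *
        volume.real E := by gcongr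
    _ = _ := by ring

theorem norm_le_of_coord (x : V n) {r : ℝ} (hr : 0 ≤ r) (h : ∀ i, |x i| ≤ r) : ‖x‖ ≤ n * r := by
  rw [EuclideanSpace.norm_eq, Real.sqrt_le_left (by positivity)]
  calc ∑ i, ‖x i‖ ^ 2 ≤ ∑ _i : Fin n, r ^ 2 := by
        gcongr with i; exact h i
    _ = n * r ^ 2 := by simp
    _ ≤ (n * r) ^ 2 := by
        rw [mul_pow]
        gcongr
        exact_mod_cast Nat.le_self_pow two_ne_zero n

theorem rpow_exp_le {x : ℝ} (hx : 1 ≤ x) : x ^ ((n : ℝ) / (n + 1)) ≤ x := by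
  calc x ^ ((n : ℝ) / (n + 1)) ≤ x ^ (1 : ℝ) := by
        refine Real.rpow_le_rpow_of_exponent_le hx ?_
        rw [div_le_one (by positivity)]; linarith
    _ = x := Real.rpow_one x

/-- **Window gain**: no constraint on the spatial size. -/
theorem SA.window {c C : ℝ} (h : SA n c C) (hc : 0 ≤ c) (hC : 0 ≤ C) :
    ∃ C' : ℝ≥0∞, C' ≠ ∞ ∧ ∀ ρ : ℝ, 1 ≤ ρ → ∀ E : Set (V n), MeasurableSet E →
      ∀ r : ℝ, E ⊆ closedBall 0 r → ∀ τ : V n → ℝ, Measurable τ → (∀ x ∈ E, |τ x| ≤ ρ) →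
      Phi E τ 1 ≤ C' * ENNReal.ofReal (ρ ^ ((n : ℝ) / (n + 1))) * volume E := by
  classical
  obtain ⟨C₁, hC₁, hloc⟩ := spaceLoc n
  set K : ℝ := C * volume.real (closedBall (0 : V n) 1) ^ c * (2 * n + 4) with hK
  refine ⟨C₁ * ENNReal.ofReal K, by finiteness, fun ρ hρ E hE r hEr τ hτ hτρ => ?_⟩
  have hρ0 : 0 < ρ := by linarith
  have hfin : volume E ≠ ∞ := ((measure_mono hEr).trans_lt measure_closedBall_lt_top).ne
  have hs : ∀ x ∈ E, cube ρ x ∈ Fintype.piFinset fun _ : Fin n => Finset.Icc (-⌈r⌉) ⌈r⌉ := by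
    intro x hx
    rw [Fintype.mem_piFinset]
    intro i
    have h1 : |x i| ≤ r := (abs_coord_le x i).trans (mem_closedBall_zero_iff.1 (hEr hx))
    have h2 : |ρ⁻¹ * x i| ≤ r := by
      rw [abs_mul, abs_of_pos (inv_pos.2 hρ0)]
      exact (mul_le_of_le_one_left (abs_nonneg _) (inv_le_one_of_one_le₀ hρ)).trans h1
    have h3 := Int.le_ceil r
    rw [Finset.mem_Icc, cube]
    constructor
    · rw [Int.le_floor]; push_cast; linarith [(abs_le.1 h2).1]
    · have : (⌊ρ⁻¹ * x i⌋ : ℝ) ≤ ⌈r⌉ := (Int.floor_le _).trans ((abs_le.1 h2).2.trans h3)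
      exact_mod_cast this
  refine (hloc ρ hρ E hE hfin τ hτ hτρ _ hs).trans ?_
  have hq : ∀ q : Fin n → ℤ, Phi (E ∩ cube ρ ⁻¹' {q}) τ 2 ≤
      ENNReal.ofReal K * ENNReal.ofReal (ρ ^ ((n : ℝ) / (n + 1))) *
        volume (E ∩ cube ρ ⁻¹' {q}) := by
    intro q
    have hn0 : (0 : ℝ) ≤ n := Nat.cast_nonneg n
    have hR : 1 ≤ (2 * n + 4) * ρ := by nlinarith
    refine (h.scaled' hc hC (hE.inter (measurableSet_cube ρ q)) hτ
      (WithLp.toLp 2 fun i => ρ * q i) 0 two_pos hR fun x hx => ⟨?_, ?_⟩).trans ?_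
    · have h1 : ‖x - WithLp.toLp 2 fun i => ρ * q i‖ ≤ n * ρ := by
        refine norm_le_of_coord _ hρ0.le fun i => ?_
        have h2 : ⌊ρ⁻¹ * x i⌋ = q i := congrFun (mem_singleton_iff.1 hx.2) i
        have h3 := Int.floor_le (ρ⁻¹ * x i)
        have h4 := Int.lt_floor_add_one (ρ⁻¹ * x i)
        rw [h2] at h3 h4
        rw [le_inv_mul_iff₀ hρ0] at h3
        rw [inv_mul_lt_iff₀ hρ0] at h4
        simp only [PiLp.sub_apply]
        rw [abs_le]; constructor <;> nlinarith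
      nlinarith
    · have := hτρ x hx.1
      rw [sub_zero]; nlinarith
    · gcongr
      rw [← ENNReal.ofReal_mul (by positivity)]
      refine ENNReal.ofReal_le_ofReal ?_
      rw [Real.mul_rpow (by positivity) hρ0.le, hK]
      have := rpow_exp_le (n := n) (x := 2 * n + 4) (by linarith)
      calc _ ≤ C * volume.real (closedBall (0 : V n) 1) ^ c *
            ((2 * n + 4) * ρ ^ ((n : ℝ) / (n + 1))) := by gcongr
        _ = _ := by ring
  calc C₁ * ∑ q ∈ Fintype.piFinset fun _ : Fin n => Finset.Icc (-⌈r⌉) ⌈r⌉,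
        Phi (E ∩ cube ρ ⁻¹' {q}) τ 2
      ≤ C₁ * ∑ q ∈ Fintype.piFinset fun _ : Fin n => Finset.Icc (-⌈r⌉) ⌈r⌉,
        ENNReal.ofReal K * ENNReal.ofReal (ρ ^ ((n : ℝ) / (n + 1))) *
          volume (E ∩ cube ρ ⁻¹' {q}) := by gcongr with q; exact hq q
    _ ≤ C₁ * (ENNReal.ofReal K * ENNReal.ofReal (ρ ^ ((n : ℝ) / (n + 1))) * volume E) := by
        rw [← Finset.mul_sum]
        gcongr
        exact sum_vol_fibres_le hE _ (measurableSet_cube ρ) _
    _ = _ := by ring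

/-- small set gain in a time window of length `1 / N` -/
theorem SA.d1 {c C : ℝ} (h : SA n c C) (hc : 0 ≤ c) (hC : 0 ≤ C) {N : ℝ} (hN : 1 ≤ N)
    {E : Set (V n)} (hE : MeasurableSet E) (hE1 : E ⊆ closedBall 0 1) {τ : V n → ℝ}
    (hτ : Measurable τ) (τ₀ : ℝ) (hw : ∀ x ∈ E, |τ x - τ₀| ≤ N⁻¹) :
    Phi E τ (3 * N) ≤ ENNReal.ofReal (9 * C * N ^ ((n : ℝ) / (n + 1)) * volume.real E ^ c) *
      volume E := by
  have hN0 : 0 < N := by linarith
  have hfin : volume E ≠ ∞ := ((measure_mono hE1).trans_lt measure_closedBall_lt_top).ne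
  refine (h.scaled hC hE hτ 0 τ₀ (ρ := 3 * N) (R := 9 * N) (by positivity) (by linarith)
    fun x hx => ⟨?_, ?_⟩).trans ?_
  · have := mem_closedBall_zero_iff.1 (hE1 hx)
    rw [sub_zero]; nlinarith
  · calc (3 * N) ^ 2 * |τ x - τ₀| ≤ (3 * N) ^ 2 * N⁻¹ := by gcongr; exact hw x hx
      _ = 9 * N := by field_simp; norm_num
  · rw [← ofReal_measureReal hfin, ← ENNReal.ofReal_mul (by positivity)]
    refine ENNReal.ofReal_le_ofReal ?_
    have h0 : 0 ≤ volume.real E := measureReal_nonneg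
    have h1 : (3 * N) ^ n * volume.real E / (9 * N) ^ n ≤ volume.real E := by
      rw [div_le_iff₀ (by positivity), mul_comm]
      gcongr; norm_num
    have h2 := rpow_exp_le (n := n) (x := 9) (by norm_num)
    rw [Real.mul_rpow (by norm_num) hN0.le]
    calc _ ≤ C * (9 * N ^ ((n : ℝ) / (n + 1))) * volume.real E ^ c * volume.real E := by gcongr
      _ = _ := by ring

/-- window gain at frequency `N` -/
theorem SA.d2 {c C : ℝ} (h : SA n c C) (hc : 0 ≤ c) (hC : 0 ≤ C) :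
    ∃ C' : ℝ≥0∞, C' ≠ ∞ ∧ ∀ N w : ℝ, 0 < N → 1 ≤ N ^ 2 * w →
      ∀ E : Set (V n), MeasurableSet E → E ⊆ closedBall 0 1 → ∀ τ : V n → ℝ, Measurable τ →
      ∀ τ₀ : ℝ, (∀ x ∈ E, |τ x - τ₀| ≤ w) →
      Phi E τ (3 * N) ≤ C' * ENNReal.ofReal ((N ^ 2 * w) ^ ((n : ℝ) / (n + 1))) * volume E := by
  obtain ⟨C₁, hC₁, hw⟩ := h.window hc hC
  refine ⟨C₁ * 9, by finiteness, fun N w hN hNw E hE hE1 τ hτ τ₀ hτw => ?_⟩
  have hρ : 0 < 3 * N := by positivity
  have h1 := Phi_scale E τ 0 τ₀ hρ 1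
  rw [mul_one] at h1
  have h2 := hw (9 * (N ^ 2 * w)) (by linarith) (sE E 0 (3 * N)) (measurableSet_sE hE _ _) (3 * N)
    (fun y hy => by
      obtain ⟨x, hxE, -, h3⟩ := mem_sE hρ hy
      have := mem_closedBall_zero_iff.1 (hE1 hxE)
      rw [mem_closedBall_zero_iff, h3, sub_zero]; nlinarith) _ (measurable_sT hτ 0 τ₀ (3 * N))
    (fun y hy => by
      obtain ⟨x, hxE, rfl, -⟩ := mem_sE hρ hy
      rw [sT, abs_mul, abs_of_pos (pow_pos hρ 2)]
      calc _ ≤ (3 * N) ^ 2 * w := by gcongr; exact hτw _ hxE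
        _ = _ := by ring)
  refine h1.trans ((mul_le_mul_right h2 _).trans ?_)
  rw [volume_sE E 0 hρ, Real.mul_rpow (by norm_num) (by linarith),
    ENNReal.ofReal_mul (by positivity)]
  have h3 : ENNReal.ofReal (((3 * N) ^ n)⁻¹) * ENNReal.ofReal ((3 * N) ^ n) = 1 := by
    rw [← ENNReal.ofReal_mul (by positivity), inv_mul_cancel₀ (by positivity), ENNReal.ofReal_one]
  have h4 : ENNReal.ofReal ((9 : ℝ) ^ ((n : ℝ) / (n + 1))) ≤ 9 := by
    have := ENNReal.ofReal_le_ofReal (rpow_exp_le (n := n) (x := 9) (by norm_num))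
    simpa using this
  calc _ = (ENNReal.ofReal (((3 * N) ^ n)⁻¹) * ENNReal.ofReal ((3 * N) ^ n)) *
        (C₁ * ENNReal.ofReal ((9 : ℝ) ^ ((n : ℝ) / (n + 1))) *
          ENNReal.ofReal ((N ^ 2 * w) ^ ((n : ℝ) / (n + 1))) * volume E) := by ring
    _ ≤ _ := by rw [h3, one_mul]; gcongr

end Crest.Agent.N76.Red
end

-- ▼ part N76/Red/StepE
section

/-! # Row 76: summation over all frequency scales (helper14). -/

set_option autoImplicit false

open MeasureTheory Set Metric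
open scoped ENNReal RealInnerProductSpace

namespace Crest.Agent.N76.Red

variable {n : ℕ}

theorem geom_le {q : ℝ} (hq0 : 0 ≤ q) (hq : q < 1) (K : ℕ) :
    ∑ i ∈ Finset.range K, q ^ i ≤ (1 - q)⁻¹ := by
  rw [← tsum_geometric_of_lt_one hq0 hq]
  exact (summable_geometric_of_lt_one hq0 hq).sum_le_tsum _ fun i _ => by positivity

/-- the pointwise summation lemma -/
theorem seq_sum {p : ℕ → ℝ} (hp : Antitone p) (hp0 : ∀ k, 0 ≤ p k) {ℓ : ℕ → ℕ}
    (hℓ : ∀ k, ℓ k ≤ k) {q θ : ℝ} (hq0 : 0 ≤ q) (hq : q < 1) (hθ : θ < 1)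
    (h : ∀ k, ℓ k < k → p (k + (ℓ k + 1)) ≤ θ * p k) (K : ℕ) :
    ∑ k ∈ Finset.range K, q ^ ℓ k * p k ≤ (1 - q)⁻¹ * (1 + (1 - θ)⁻¹) * p 0 := by
  have hθ' : 0 < 1 - θ := by linarith
  have hd : ∀ i, 0 ≤ p i - p (i + 1) := fun i => sub_nonneg.2 (hp (Nat.le_succ i))
  have h1 : ∀ k ∈ Finset.range K, q ^ ℓ k * p k ≤ q ^ k * p 0 +
      (1 - θ)⁻¹ * ∑ i ∈ Finset.range K, q ^ i * (p (k + i) - p (k + i + 1)) := by
    intro k hk
    have hS : 0 ≤ ∑ i ∈ Finset.range K, q ^ i * (p (k + i) - p (k + i + 1)) :=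
      Finset.sum_nonneg fun i _ => mul_nonneg (by positivity) (hd _)
    rcases (hℓ k).eq_or_lt with he | hlt
    · rw [he]
      have : q ^ k * p k ≤ q ^ k * p 0 := by gcongr; exact hp (Nat.zero_le k)
      have : 0 ≤ (1 - θ)⁻¹ * ∑ i ∈ Finset.range K, q ^ i * (p (k + i) - p (k + i + 1)) := by
        positivity
      linarith
    · have h2 : (1 - θ) * p k ≤ ∑ i ∈ Finset.range (ℓ k + 1), (p (k + i) - p (k + i + 1)) := by
        have := Finset.sum_range_sub' (fun i => p (k + i)) (ℓ k + 1)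
        simp only [add_zero] at this
        simp only [add_assoc]
        rw [this]; linarith [h k hlt]
      have h3 : q ^ ℓ k * ((1 - θ) * p k) ≤
          ∑ i ∈ Finset.range K, q ^ i * (p (k + i) - p (k + i + 1)) := by
        calc q ^ ℓ k * ((1 - θ) * p k)
            ≤ q ^ ℓ k * ∑ i ∈ Finset.range (ℓ k + 1), (p (k + i) - p (k + i + 1)) := by gcongr
          _ ≤ ∑ i ∈ Finset.range (ℓ k + 1), q ^ i * (p (k + i) - p (k + i + 1)) := by
              rw [Finset.mul_sum]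
              refine Finset.sum_le_sum fun i hi => mul_le_mul_of_nonneg_right ?_ (hd _)
              exact pow_le_pow_of_le_one hq0 hq.le (Nat.lt_succ_iff.1 (Finset.mem_range.1 hi))
          _ ≤ _ := by
              refine Finset.sum_le_sum_of_subset_of_nonneg (Finset.range_subset_range.2 ?_)
                fun i _ _ => mul_nonneg (by positivity) (hd _)
              have := Finset.mem_range.1 hk
              omega
      have h4 : q ^ ℓ k * p k ≤
          (1 - θ)⁻¹ * ∑ i ∈ Finset.range K, q ^ i * (p (k + i) - p (k + i + 1)) := by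
        rw [le_inv_mul_iff₀ hθ']; linarith
      have : 0 ≤ q ^ k * p 0 := mul_nonneg (by positivity) (hp0 0)
      linarith
  refine (Finset.sum_le_sum h1).trans ?_
  rw [Finset.sum_add_distrib, ← Finset.sum_mul, ← Finset.mul_sum, Finset.sum_comm]
  have h5 : ∑ i ∈ Finset.range K, ∑ k ∈ Finset.range K, q ^ i * (p (k + i) - p (k + i + 1)) ≤
      (∑ i ∈ Finset.range K, q ^ i) * p 0 := by
    rw [Finset.sum_mul]
    refine Finset.sum_le_sum fun i _ => ?_
    rw [← Finset.mul_sum]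
    gcongr
    have := Finset.sum_range_sub' (fun k => p (k + i)) K
    simp only [add_right_comm _ 1 i, zero_add] at this
    rw [this]
    linarith [hp0 (K + i), hp (Nat.zero_le i)]
  have h6 := geom_le hq0 hq K
  have h7 := hp0 0
  calc _ ≤ (1 - q)⁻¹ * p 0 + (1 - θ)⁻¹ * ((1 - q)⁻¹ * p 0) := by
        gcongr
        exact h5.trans (by gcongr)
    _ = _ := by ring

theorem sum_lintegral_fibres_le {ι : Type*} {E : Set (V n)} (hE : MeasurableSet E) (ℓ : V n → ι)
    (hℓ : ∀ i, MeasurableSet (ℓ ⁻¹' {i})) (s : Finset ι) (f : V n → ℝ≥0∞) :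
    ∑ i ∈ s, ∫⁻ x in E ∩ ℓ ⁻¹' {i}, f x ≤ ∫⁻ x in E, f x := by
  rw [← lintegral_biUnion_finset _ fun i _ => hE.inter (hℓ i)]
  · exact lintegral_mono_set (iUnion₂_subset fun i _ => inter_subset_left)
  · intro i _ j _ hij
    refine Set.disjoint_left.2 fun x hx hx' => hij ?_
    rw [← mem_singleton_iff.1 hx.2, ← mem_singleton_iff.1 hx'.2]

/-- the dyadic time node of level `k` -/
def node (E : Set (V n)) (τ : V n → ℝ) (k : ℕ) (j : ℤ) : Set (V n) :=
  E ∩ (fun x => ⌊(2 : ℝ) ^ k * τ x⌋) ⁻¹' {j}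

/-- mass of the node of `x` -/
noncomputable def mass (E : Set (V n)) (τ : V n → ℝ) (k : ℕ) (x : V n) : ℝ :=
  volume.real (node E τ k ⌊(2 : ℝ) ^ k * τ x⌋)

open Classical in
/-- for how many levels the node of `x` keeps more than half of the mass -/
noncomputable def ell (E : Set (V n)) (τ : V n → ℝ) (k : ℕ) (x : V n) : ℕ :=
  Nat.findGreatest (fun l => mass E τ k x / 2 < mass E τ (k + l) x) k

theorem floor_nest {a b : ℝ} (k l : ℕ) (h : ⌊(2 : ℝ) ^ (k + l) * a⌋ = ⌊(2 : ℝ) ^ (k + l) * b⌋) :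
    ⌊(2 : ℝ) ^ k * a⌋ = ⌊(2 : ℝ) ^ k * b⌋ := by
  have : ∀ t : ℝ, ⌊(2 : ℝ) ^ k * t⌋ = ⌊(2 : ℝ) ^ (k + l) * t⌋ / ((2 ^ l : ℕ) : ℤ) := by
    intro t
    rw [← Int.floor_div_natCast]
    congr 1; push_cast; field_simp; ring
  rw [this a, this b, h]

theorem measurableSet_node {E : Set (V n)} (hE : MeasurableSet E) {τ : V n → ℝ}
    (hτ : Measurable τ) (k : ℕ) (j : ℤ) : MeasurableSet (node E τ k j) :=
  hE.inter (measurableSet_floor_fibre hτ _ j)

theorem node_subset (E : Set (V n)) (τ : V n → ℝ) (k l : ℕ) (x : V n) :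
    node E τ (k + l) ⌊(2 : ℝ) ^ (k + l) * τ x⌋ ⊆ node E τ k ⌊(2 : ℝ) ^ k * τ x⌋ :=
  fun _ hy => ⟨hy.1, floor_nest k l hy.2⟩

theorem measurable_mass (E : Set (V n)) {τ : V n → ℝ} (hτ : Measurable τ) (k : ℕ) :
    Measurable (mass E τ k) :=
  (measurable_of_countable fun j : ℤ => volume.real (node E τ k j)).comp
    (Int.measurable_floor.comp (hτ.const_mul _))

theorem measurable_ell (E : Set (V n)) {τ : V n → ℝ} (hτ : Measurable τ) (k : ℕ) :
    Measurable (ell E τ k) := by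
  classical
  exact measurable_findGreatest fun l _ =>
    measurableSet_lt ((measurable_mass E hτ k).div_const 2) (measurable_mass E hτ (k + l))

theorem mass_antitone {E : Set (V n)} (hfin : volume E ≠ ∞) (τ : V n → ℝ) (x : V n) :
    Antitone fun k => mass E τ k x := by
  refine antitone_nat_of_succ_le fun k => ?_
  exact measureReal_mono (node_subset E τ k 1 x)
    ((measure_mono inter_subset_left).trans_lt hfin.lt_top).ne

theorem same_node {E : Set (V n)} (hE : MeasurableSet E) (hfin : volume E ≠ ∞) {τ : V n → ℝ}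
    (hτ : Measurable τ) {k l : ℕ} {j : ℤ} {x y : V n} (hx : x ∈ node E τ k j)
    (hy : y ∈ node E τ k j) (h1 : mass E τ k x / 2 < mass E τ (k + l) x)
    (h2 : mass E τ k y / 2 < mass E τ (k + l) y) : |τ x - τ y| ≤ ((2 : ℝ) ^ (k + l))⁻¹ := by
  have hx' : ⌊(2 : ℝ) ^ k * τ x⌋ = j := hx.2
  have hy' : ⌊(2 : ℝ) ^ k * τ y⌋ = j := hy.2
  have he : ⌊(2 : ℝ) ^ (k + l) * τ x⌋ = ⌊(2 : ℝ) ^ (k + l) * τ y⌋ := by
    by_contra hne
    have hfin' : ∀ i j, volume (node E τ i j) ≠ ∞ := fun i j =>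
      ((measure_mono inter_subset_left).trans_lt hfin.lt_top).ne
    have hd : Disjoint (node E τ (k + l) ⌊(2 : ℝ) ^ (k + l) * τ x⌋)
        (node E τ (k + l) ⌊(2 : ℝ) ^ (k + l) * τ y⌋) :=
      Set.disjoint_left.2 fun z hz hz' => hne ((mem_singleton_iff.1 hz.2).symm.trans hz'.2)
    have h3 := measureReal_union hd (measurableSet_node hE hτ _ _) (hfin' _ _) (hfin' _ _)
    have h4 : volume.real (node E τ (k + l) ⌊(2 : ℝ) ^ (k + l) * τ x⌋ ∪
        node E τ (k + l) ⌊(2 : ℝ) ^ (k + l) * τ y⌋) ≤ volume.real (node E τ k j) := by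
      refine measureReal_mono (union_subset ?_ ?_) (hfin' _ _)
      · rw [← hx']; exact node_subset E τ k l x
      · rw [← hy']; exact node_subset E τ k l y
    unfold mass at h1 h2
    rw [hx'] at h1; rw [hy'] at h2
    linarith
  have h5 := Int.abs_sub_lt_one_of_floor_eq_floor he
  rw [← mul_sub, abs_mul, abs_of_pos (by positivity)] at h5
  rw [← one_div, le_div_iff₀ (by positivity), mul_comm]
  exact h5.le

theorem SA.piece {c C : ℝ} (h : SA n c C) (hc : 0 ≤ c) (hC : 0 ≤ C) :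
    ∃ C' : ℝ≥0∞, C' ≠ ∞ ∧ ∀ q : ℝ, q = (2 : ℝ) ^ (-((n : ℝ) / (n + 1) / 4)) →
      ∀ E : Set (V n), MeasurableSet E → E ⊆ closedBall 0 1 → ∀ τ : V n → ℝ, Measurable τ →
      ∀ (k l : ℕ) (j : ℤ),
      ENNReal.ofReal ((q ^ l)⁻¹) * Phi (node E τ k j ∩ ell E τ k ⁻¹' {l}) τ (3 * 2 ^ k) ≤
        C' * ENNReal.ofReal (((2 : ℝ) ^ k) ^ ((n : ℝ) / (n + 1))) *
          ∫⁻ x in node E τ k j ∩ ell E τ k ⁻¹' {l},
            ENNReal.ofReal (q ^ ell E τ k x * mass E τ k x ^ (c / 2)) := by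
  classical
  obtain ⟨C₂, hC₂, hd2⟩ := h.d2 hc hC
  refine ⟨max (ENNReal.ofReal (9 * C)) C₂, by finiteness, fun q hq E hE hE1 τ hτ k l j => ?_⟩
  have hq0 : 0 < q := by rw [hq]; positivity
  have hfin : volume E ≠ ∞ := ((measure_mono hE1).trans_lt measure_closedBall_lt_top).ne
  set A := node E τ k j ∩ ell E τ k ⁻¹' {l} with hA
  have mA : MeasurableSet A :=
    (measurableSet_node hE hτ k j).inter (measurable_ell E hτ k (measurableSet_singleton l))
  rcases eq_or_ne (volume A) 0 with h0 | h0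
  · rw [Phi_eq_zero h0, mul_zero]; exact zero_le
  obtain ⟨x₁, hx₁⟩ := nonempty_of_measure_ne_zero h0
  set m : ℝ := volume.real (node E τ k j) with hm
  have hJfin : volume (node E τ k j) ≠ ∞ :=
    ((measure_mono inter_subset_left).trans_lt hfin.lt_top).ne
  have hm0 : 0 < m := ENNReal.toReal_pos
    (fun h' => h0 (measure_mono_null inter_subset_left h')) hJfin
  have hmass : ∀ x ∈ A, mass E τ k x = m := fun x hx => by
    have : ⌊(2 : ℝ) ^ k * τ x⌋ = j := hx.1.2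
    rw [mass, this]
  have hell : ∀ x ∈ A, ell E τ k x = l := fun x hx => hx.2
  have hlk : l ≤ k := by rw [← hell x₁ hx₁]; exact Nat.findGreatest_le k
  have hP : ∀ x ∈ A, mass E τ k x / 2 < mass E τ (k + l) x := fun x hx => by
    rw [← hell x hx]
    refine Nat.findGreatest_spec (P := fun l => mass E τ k x / 2 < mass E τ (k + l) x)
      (Nat.zero_le k) ?_
    simp only [add_zero, hmass x hx]; linarith
  have hw : ∀ x ∈ A, |τ x - τ x₁| ≤ ((2 : ℝ) ^ (k + l))⁻¹ := fun x hx =>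
    same_node hE hfin hτ hx.1 hx₁.1 (hP x hx) (hP x₁ hx₁)
  have hA1 : A ⊆ closedBall 0 1 := fun x hx => hE1 hx.1.1
  have hI : ∫⁻ x in A, ENNReal.ofReal (q ^ ell E τ k x * mass E τ k x ^ (c / 2)) =
      ENNReal.ofReal (q ^ l * m ^ (c / 2)) * volume A := by
    rw [← setLIntegral_const]
    exact setLIntegral_congr_fun mA fun x hx => by simp only [hmass x hx, hell x hx]
  set a : ℝ := (n : ℝ) / (n + 1) with ha
  have key : Phi A τ (3 * 2 ^ k) ≤ max (ENNReal.ofReal (9 * C)) C₂ *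
      ENNReal.ofReal (((2 : ℝ) ^ k) ^ a * (q ^ l * q ^ l * m ^ (c / 2))) * volume A := by
    rcases le_total (m ^ (c / 2)) (q ^ l * q ^ l) with hcase | hcase
    · refine (h.d1 hc hC (N := 2 ^ k) (one_le_pow₀ one_le_two) mA hA1 hτ (τ x₁)
        fun x hx => (hw x hx).trans ?_).trans ?_
      · exact inv_anti₀ (by positivity) (pow_le_pow_right₀ one_le_two (Nat.le_add_right k l))
      · gcongr
        rw [mul_assoc, ENNReal.ofReal_mul (by positivity)]
        gcongr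
        · exact le_max_left _ _
        · calc volume.real A ^ c ≤ m ^ c := by
                gcongr; exact measureReal_mono inter_subset_left hJfin
            _ = m ^ (c / 2) * m ^ (c / 2) := by rw [← Real.rpow_add hm0]; congr 1; ring
            _ ≤ _ := by gcongr
    · have e1 : ((2 : ℝ) ^ k) ^ 2 * ((2 : ℝ) ^ (k + l))⁻¹ = 2 ^ k * ((2 : ℝ) ^ l)⁻¹ := by
        rw [pow_add]; field_simp
      refine (hd2 (2 ^ k) _ (by positivity) ?_ A mA hA1 τ hτ (τ x₁) hw).trans ?_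
      · rw [e1, ← div_eq_mul_inv, one_le_div (by positivity)]
        exact pow_le_pow_right₀ one_le_two hlk
      · rw [e1, Real.mul_rpow (by positivity) (by positivity)]
        have e2 : (((2 : ℝ) ^ l)⁻¹) ^ a = q ^ l * q ^ l * (q ^ l * q ^ l) := by
          rw [hq, ← Real.rpow_natCast, ← Real.rpow_natCast, ← Real.rpow_neg (by norm_num),
            ← Real.rpow_mul (by norm_num), ← Real.rpow_mul (by norm_num),
            ← Real.rpow_add (by norm_num), ← Real.rpow_add (by norm_num)]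
          congr 1; ring
        rw [e2]
        gcongr
        exact le_max_right _ _
  rw [hI]
  refine (mul_le_mul_right key _).trans (le_of_eq ?_)
  have e3 : ENNReal.ofReal ((q ^ l)⁻¹) *
      ENNReal.ofReal (((2 : ℝ) ^ k) ^ a * (q ^ l * q ^ l * m ^ (c / 2))) =
      ENNReal.ofReal (((2 : ℝ) ^ k) ^ a) * ENNReal.ofReal (q ^ l * m ^ (c / 2)) := by
    rw [← ENNReal.ofReal_mul (by positivity), ← ENNReal.ofReal_mul (by positivity)]
    congr 1; field_simp
  calc _ = max (ENNReal.ofReal (9 * C)) C₂ * (ENNReal.ofReal ((q ^ l)⁻¹) *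
      ENNReal.ofReal (((2 : ℝ) ^ k) ^ a * (q ^ l * q ^ l * m ^ (c / 2)))) * volume A := by ring
    _ = _ := by rw [e3]; ring

/-- **Step E**: the sum over all scales. -/
theorem stepE (hn : 1 ≤ n) (hSS : SS n) : ∃ C' : ℝ≥0∞, C' ≠ ∞ ∧
    ∀ E : Set (V n), MeasurableSet E → E ⊆ closedBall 0 1 → ∀ τ : V n → ℝ, Measurable τ →
      ∀ (K : ℕ) (s : ℕ → Finset ℤ),
      ∑ k ∈ Finset.range K, ENNReal.ofReal ((((2 : ℝ) ^ k) ^ ((n : ℝ) / (n + 1)))⁻¹) *
        ∑ j ∈ s k, Phi (node E τ k j) τ (3 * 2 ^ k) ≤ C' * volume E := by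
  classical
  obtain ⟨c, C, hc, -, hC, h⟩ := stepA hSS
  obtain ⟨C₁, hC₁, hp⟩ := SA.piece (c := c) (C := C) h hc.le hC.le
  set a : ℝ := (n : ℝ) / (n + 1) with ha
  have ha0 : 0 < a := by have : (0 : ℝ) < n := by exact_mod_cast hn
                         positivity
  set q : ℝ := (2 : ℝ) ^ (-(a / 4)) with hq
  have hq0 : 0 < q := by positivity
  have hq1 : q < 1 := Real.rpow_lt_one_of_one_lt_of_neg one_lt_two (by linarith)
  set θ : ℝ := (1 / 2 : ℝ) ^ (c / 2) with hθ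
  have hθ1 : θ < 1 := Real.rpow_lt_one (by norm_num) (by norm_num) (by linarith)
  set ω : ℝ := volume.real (closedBall (0 : V n) 1) with hω
  refine ⟨ENNReal.ofReal ((1 - q)⁻¹) * C₁ *
    ENNReal.ofReal ((1 - q)⁻¹ * (1 + (1 - θ)⁻¹) * ω ^ (c / 2)), by finiteness,
    fun E hE hE1 τ hτ K s => ?_⟩
  have hfin : volume E ≠ ∞ := ((measure_mono hE1).trans_lt measure_closedBall_lt_top).ne
  set f : ℕ → V n → ℝ := fun k x => q ^ ell E τ k x * mass E τ k x ^ (c / 2) with hf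
  have hm0 : ∀ k x, 0 ≤ mass E τ k x := fun k x => measureReal_nonneg
  have hf0 : ∀ k x, 0 ≤ f k x := fun k x => by
    have := hm0 k x
    positivity
  have mf : ∀ k, Measurable (f k) := fun k =>
    ((measurable_of_countable fun l : ℕ => q ^ l).comp (measurable_ell E hτ k)).mul
      ((measurable_mass E hτ k).pow_const _)
  have h1 : ∀ k j, Phi (node E τ k j) τ (3 * 2 ^ k) ≤ ENNReal.ofReal ((1 - q)⁻¹) * C₁ *
      ENNReal.ofReal (((2 : ℝ) ^ k) ^ a) * ∫⁻ x in node E τ k j, ENNReal.ofReal (f k x) := by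
    intro k j
    have mJ := measurableSet_node hE hτ k j
    have mℓ : ∀ l, MeasurableSet (ell E τ k ⁻¹' {l}) := fun l =>
      measurable_ell E hτ k (measurableSet_singleton l)
    refine (Phi_le_sum mJ ((measure_mono inter_subset_left).trans_lt hfin.lt_top).ne hτ _
      (ell E τ k) mℓ (Finset.range (k + 1))
      (fun x _ => Finset.mem_range.2 (Nat.lt_succ_of_le (Nat.findGreatest_le k)))
      (fun l => (q ^ l)⁻¹) fun l _ => by positivity).trans ?_
    simp only [inv_inv]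
    rw [mul_assoc, mul_assoc]
    refine mul_le_mul' (ENNReal.ofReal_le_ofReal (geom_le hq0.le hq1 _)) ?_
    refine (Finset.sum_le_sum fun l _ => hp q rfl E hE hE1 τ hτ k l j).trans ?_
    rw [← Finset.mul_sum, mul_assoc]
    gcongr
    exact sum_lintegral_fibres_le mJ _ mℓ _ _
  have h2 : ∀ k, ENNReal.ofReal ((((2 : ℝ) ^ k) ^ a)⁻¹) *
      ∑ j ∈ s k, Phi (node E τ k j) τ (3 * 2 ^ k) ≤
      ENNReal.ofReal ((1 - q)⁻¹) * C₁ * ∫⁻ x in E, ENNReal.ofReal (f k x) := by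
    intro k
    have e : ENNReal.ofReal ((((2 : ℝ) ^ k) ^ a)⁻¹) * ENNReal.ofReal (((2 : ℝ) ^ k) ^ a) = 1 := by
      rw [← ENNReal.ofReal_mul (by positivity), inv_mul_cancel₀ (by positivity),
        ENNReal.ofReal_one]
    calc _ ≤ ENNReal.ofReal ((((2 : ℝ) ^ k) ^ a)⁻¹) * (ENNReal.ofReal ((1 - q)⁻¹) * C₁ *
          ENNReal.ofReal (((2 : ℝ) ^ k) ^ a) * ∫⁻ x in E, ENNReal.ofReal (f k x)) := by
          gcongr
          refine (Finset.sum_le_sum fun j _ => h1 k j).trans ?_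
          rw [← Finset.mul_sum]
          gcongr
          exact sum_lintegral_fibres_le hE _ (measurableSet_floor_fibre hτ _) _ _
      _ = (ENNReal.ofReal ((((2 : ℝ) ^ k) ^ a)⁻¹) * ENNReal.ofReal (((2 : ℝ) ^ k) ^ a)) *
          (ENNReal.ofReal ((1 - q)⁻¹) * C₁ * ∫⁻ x in E, ENNReal.ofReal (f k x)) := by ring
      _ = _ := by rw [e, one_mul]
  refine (Finset.sum_le_sum fun k _ => h2 k).trans ?_
  rw [← Finset.mul_sum, mul_assoc _ _ (volume E), ← setLIntegral_const,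
    ← lintegral_finsetSum _ fun k _ => (mf k).ennreal_ofReal]
  gcongr with x
  rw [← ENNReal.ofReal_sum_of_nonneg fun k _ => hf0 k x]
  refine ENNReal.ofReal_le_ofReal ?_
  have h3 := seq_sum (p := fun k => mass E τ k x ^ (c / 2)) (ℓ := fun k => ell E τ k x)
    (fun i j hij => Real.rpow_le_rpow (hm0 _ _) (mass_antitone hfin τ x hij) (by linarith))
    (fun k => Real.rpow_nonneg (hm0 k x) _) (fun k => Nat.findGreatest_le k) hq0.le hq1 hθ1
    (fun k hk => by
      have h4 := Nat.findGreatest_is_greatest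
        (P := fun l => mass E τ k x / 2 < mass E τ (k + l) x) (Nat.lt_succ_self _) hk
      rw [hθ, ← Real.mul_rpow (by norm_num) (hm0 _ _)]
      refine Real.rpow_le_rpow (hm0 _ _) ?_ (by linarith)
      have h5 := not_lt.1 h4
      change mass E τ (k + (ell E τ k x + 1)) x ≤ _ at h5
      linarith) K
  refine h3.trans ?_
  have : 0 < 1 - q := by linarith
  have : 0 < 1 - θ := by linarith
  have := hm0 0 x
  gcongr
  exact measureReal_mono (inter_subset_left.trans hE1) measure_closedBall_lt_top.ne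

end Crest.Agent.N76.Red
end

-- ▼ part N76/Red/Dual
section

/-! # Row 76: the dual estimate at all frequencies, and the Poisson kernel (helper14). -/

set_option autoImplicit false

open MeasureTheory Set Metric FourierTransform
open scoped ENNReal RealInnerProductSpace

namespace Crest.Agent.N76.Red

variable {n : ℕ}

/-- the inverse Sobolev weight -/
noncomputable def wt (n : ℕ) (ξ : V n) : ℝ := (1 + ‖ξ‖ ^ 2) ^ (-((n : ℝ) / (2 * (n + 1))) / 2)

theorem wt_pos (ξ : V n) : 0 < wt n ξ := by unfold wt; positivity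

theorem wt_le_one (ξ : V n) : wt n ξ ≤ 1 := by
  refine Real.rpow_le_one_of_one_le_of_nonpos (by simp) ?_
  have : (0 : ℝ) ≤ (n : ℝ) / (2 * (n + 1)) := by positivity
  linarith

theorem continuous_wt : Continuous (wt n) :=
  Continuous.rpow_const (by fun_prop) fun ξ => Or.inl (by positivity)

theorem wt_sq_le {ξ : V n} {N : ℝ} (hN : 0 < N) (h : N ≤ ‖ξ‖) :
    wt n ξ ^ 2 ≤ (N ^ ((n : ℝ) / (n + 1)))⁻¹ := by
  have h0 : (0 : ℝ) ≤ (n : ℝ) / (2 * (n + 1)) := by positivity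
  have h1 : wt n ξ ≤ (N ^ 2) ^ (-((n : ℝ) / (2 * (n + 1))) / 2) :=
    Real.rpow_le_rpow_of_nonpos (by positivity) (by nlinarith) (by linarith)
  refine (pow_le_pow_left₀ (wt_pos ξ).le h1 2).trans (le_of_eq ?_)
  rw [← Real.rpow_natCast, ← Real.rpow_natCast, ← Real.rpow_mul hN.le, ← Real.rpow_mul hN.le,
    ← Real.rpow_neg hN.le]
  congr 1; push_cast; field_simp

theorem dual_zero (hn : 1 ≤ n) (hSS : SS n) : ∃ C : ℝ≥0∞, C ≠ ∞ ∧
    ∀ E : Set (V n), MeasurableSet E → E ⊆ closedBall 0 1 → ∀ τ : V n → ℝ, Measurable τ →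
      ∀ B : ℝ, (∀ x ∈ E, |τ x| ≤ B) → ∀ g, Adm E g →
      ∫⁻ ξ, ENNReal.ofReal (wt n ξ ^ 2) * ‖H g τ ξ‖ₑ ^ 2 ≤ C * volume E := by
  classical
  obtain ⟨C₁, hC₁, hE1⟩ := stepE hn hSS
  obtain ⟨C₂, hC₂, hT⟩ := timeLoc n
  have hb : ∀ r : ℝ, volume (closedBall (0 : V n) r) ≠ ∞ := fun r => measure_closedBall_lt_top.ne
  refine ⟨volume (closedBall (0 : V n) (2 ^ n)) * volume (closedBall (0 : V n) 1) + C₂ * C₁,
    ENNReal.add_ne_top.2 ⟨ENNReal.mul_ne_top (hb _) (hb _), ENNReal.mul_ne_top hC₂ hC₁⟩,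
    fun E hE hEb τ hτ B hB g hg => ?_⟩
  have hfin : volume E ≠ ∞ := ((measure_mono hEb).trans_lt measure_closedBall_lt_top).ne
  have hgi := hg.integrable hE hfin
  set F : V n → ℝ≥0∞ := fun ξ => ‖H g τ ξ‖ₑ ^ 2 with hF
  have mF : Measurable F := (continuous_H hgi hτ).measurable.enorm.pow_const 2
  set a : ℝ := (n : ℝ) / (n + 1) with ha
  set S : ℕ → Set (V n) := fun k => {ξ | n ≤ k ∧ (2 : ℝ) ^ k ≤ ‖ξ‖ ∧ ‖ξ‖ ≤ 2 * 2 ^ k} with hS
  have mS : ∀ k, MeasurableSet (S k) := fun k =>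
    (MeasurableSet.const _).inter ((measurableSet_le measurable_const measurable_norm).inter
      (measurableSet_le measurable_norm measurable_const))
  have hpt : ∀ ξ, ENNReal.ofReal (wt n ξ ^ 2) * F ξ ≤ (closedBall (0 : V n) (2 ^ n)).indicator F ξ +
      ∑' k : ℕ, (S k).indicator (fun ξ => ENNReal.ofReal ((((2 : ℝ) ^ k) ^ a)⁻¹) * F ξ) ξ := by
    intro ξ
    by_cases hξ : ξ ∈ closedBall (0 : V n) (2 ^ n)
    · rw [indicator_of_mem hξ]
      refine le_trans ?_ le_self_add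
      refine mul_le_of_le_one_left' ?_
      exact ENNReal.ofReal_le_one.2 (pow_le_one₀ (wt_pos ξ).le (wt_le_one ξ))
    · rw [mem_closedBall_zero_iff, not_le] at hξ
      obtain ⟨k, hk1, hk2⟩ := exists_nat_pow_near (x := ‖ξ‖) (y := (2 : ℝ))
        ((one_le_pow₀ one_le_two).trans hξ.le) one_lt_two
      have hnk : n ≤ k := Nat.lt_succ_iff.1 ((pow_lt_pow_iff_right₀ one_lt_two).1 (hξ.trans hk2))
      refine le_trans ?_ le_add_self
      refine le_trans ?_ (ENNReal.le_tsum k)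
      rw [indicator_of_mem (show ξ ∈ S k from ⟨hnk, hk1, by rw [pow_succ] at hk2; linarith⟩)]
      gcongr
      exact wt_sq_le (by positivity) hk1
  refine (lintegral_mono hpt).trans ?_
  rw [lintegral_add_left (mF.indicator measurableSet_closedBall), add_mul,
    lintegral_tsum fun k => ((mF.const_mul _).indicator (mS k)).aemeasurable]
  refine add_le_add ?_ ?_
  · rw [lintegral_indicator measurableSet_closedBall]
    have h1 : ∀ ξ, F ξ ≤ volume (closedBall (0 : V n) 1) * volume E := by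
      intro ξ
      have h2 : ‖H g τ ξ‖ₑ ≤ volume E := by
        unfold H HH
        refine (enorm_integral_le_lintegral_enorm _).trans ?_
        rw [← lintegral_indicator_one hE]
        refine lintegral_mono fun x => ?_
        by_cases hx : x ∈ E
        · rw [indicator_of_mem hx, ← ofReal_norm, norm_mul, norm_ph, mul_one]
          exact ENNReal.ofReal_le_one.2 (hg.2.1 x)
        · simp [hg.2.2 x hx]
      simp only [hF, sq]
      exact mul_le_mul' (h2.trans (measure_mono hEb)) h2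
    refine (lintegral_mono h1).trans (le_of_eq ?_)
    rw [setLIntegral_const]; ring
  · set s : ℕ → Finset ℤ := fun k => Finset.Icc (-⌈(2 : ℝ) ^ k * B⌉) ⌈(2 : ℝ) ^ k * B⌉ with hs
    have hs' : ∀ k, ∀ x ∈ E, ⌊(2 : ℝ) ^ k * τ x⌋ ∈ s k := by
      intro k x hx
      have h2 : |(2 : ℝ) ^ k * τ x| ≤ 2 ^ k * B := by
        rw [abs_mul, abs_of_pos (by positivity)]; gcongr; exact hB x hx
      have h3 := Int.le_ceil ((2 : ℝ) ^ k * B)
      rw [Finset.mem_Icc]
      constructor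
      · rw [Int.le_floor]; push_cast; linarith [(abs_le.1 h2).1]
      · have : (⌊(2 : ℝ) ^ k * τ x⌋ : ℝ) ≤ ⌈(2 : ℝ) ^ k * B⌉ :=
          (Int.floor_le _).trans ((abs_le.1 h2).2.trans h3)
        exact_mod_cast this
    have h4 : ∀ k, ∫⁻ ξ, (S k).indicator
        (fun ξ => ENNReal.ofReal ((((2 : ℝ) ^ k) ^ a)⁻¹) * F ξ) ξ ≤
        C₂ * (ENNReal.ofReal ((((2 : ℝ) ^ k) ^ a)⁻¹) *
          ∑ j ∈ s k, Phi (node E τ k j) τ (3 * 2 ^ k)) := by
      intro k
      by_cases hk : n ≤ k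
      · rw [lintegral_indicator (mS k), lintegral_const_mul' _ _ ENNReal.ofReal_ne_top,
          mul_left_comm]
        gcongr
        have hS' : S k = {ξ : V n | (2 : ℝ) ^ k ≤ ‖ξ‖ ∧ ‖ξ‖ ≤ 2 * 2 ^ k} := by
          ext ξ; simp [hS, hk]
        rw [hS']
        refine hT (2 ^ k) (one_le_pow₀ one_le_two) ?_ E hE hEb τ hτ g hg (s k) (hs' k)
        have : n ≤ 2 ^ k := (Nat.lt_two_pow_self.le).trans (Nat.pow_le_pow_right two_pos hk)
        exact_mod_cast this
      · have hS' : S k = ∅ := by ext ξ; simp [hS, hk]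
        simp [hS']
    refine (ENNReal.tsum_le_tsum h4).trans ?_
    rw [ENNReal.tsum_mul_left, mul_assoc]
    gcongr
    exact ENNReal.tsum_le_of_sum_range_le fun K => hE1 E hE hEb τ hτ K s

/-- **Dual estimate.** -/
theorem dual (hn : 1 ≤ n) (hSS : SS n) : ∃ C : ℝ≥0∞, C ≠ ∞ ∧ ∀ x₀ : V n,
    ∀ E : Set (V n), MeasurableSet E → E ⊆ closedBall x₀ 1 → ∀ τ : V n → ℝ, Measurable τ →
      ∀ B : ℝ, (∀ x ∈ E, |τ x| ≤ B) → ∀ g, Adm E g →
      ∫⁻ ξ, ENNReal.ofReal (wt n ξ ^ 2) * ‖H g τ ξ‖ₑ ^ 2 ≤ C * volume E := by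
  obtain ⟨C, hC, h⟩ := dual_zero hn hSS
  refine ⟨C, hC, fun x₀ E hE hEb τ hτ B hB g hg => ?_⟩
  have hg' : Adm (sE E x₀ 1) (fun y => g (x₀ + (1 : ℝ)⁻¹ • y)) :=
    ⟨hg.1.comp (measurable_aff x₀ 1), fun y => hg.2.1 _, fun y hy => hg.2.2 _ hy⟩
  have h1 := h (sE E x₀ 1) (measurableSet_sE hE _ _) (fun y hy => by
      obtain ⟨x, hxE, -, h3⟩ := mem_sE one_pos hy
      rw [mem_closedBall_zero_iff, h3, one_mul, ← dist_eq_norm]; exact hEb hxE)
    _ (measurable_sT hτ x₀ 0 1) B (fun y hy => by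
      obtain ⟨x, hxE, rfl, -⟩ := mem_sE one_pos hy
      rw [sT, one_pow, one_mul, sub_zero]; exact hB _ hxE) _ hg'
  rw [volume_sE E x₀ one_pos, one_pow, ENNReal.ofReal_one, one_mul] at h1
  refine le_trans (le_of_eq (lintegral_congr fun ξ => ?_)) h1
  have h2 := norm_H_scale g τ x₀ 0 one_pos ξ
  rw [one_smul, one_pow, inv_one, one_mul] at h2
  rw [enorm_sq_eq, enorm_sq_eq, h2, inv_one]

/-- the decaying exponential is a superposition of oscillating ones -/
theorem exists_poisson : ∃ P : ℝ → ℂ, Measurable P ∧ Integrable P ∧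
    ∀ y : ℝ, 0 ≤ y → (Real.exp (-y) : ℂ) = ∫ v, P v * ph (v * y) := by
  set φ : ℝ → ℂ := fun y => Complex.exp (-(|y| : ℝ)) with hφ
  have hc : Continuous φ := by simp only [hφ]; fun_prop
  have h1 : ∀ a : ℂ, a.re = 0 → IntegrableOn (fun y : ℝ => Complex.exp (a * y) * φ y) (Iic 0) ∧
      ∫ y : ℝ in Iic 0, Complex.exp (a * y) * φ y = (1 + a)⁻¹ := by
    intro a ha
    have e : EqOn (fun y : ℝ => Complex.exp ((1 + a) * y)) (fun y => Complex.exp (a * y) * φ y)
        (Iic 0) := fun y hy => by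
      simp only [hφ, ← Complex.exp_add, abs_of_nonpos (mem_Iic.1 hy)]
      congr 1; push_cast; ring
    have hre : 0 < (1 + a).re := by simp [ha]
    refine ⟨(integrableOn_exp_mul_complex_Iic hre 0).congr_fun e measurableSet_Iic, ?_⟩
    rw [← setIntegral_congr_fun measurableSet_Iic e, integral_exp_mul_complex_Iic hre]
    simp
  have h2 : ∀ a : ℂ, a.re = 0 → IntegrableOn (fun y : ℝ => Complex.exp (a * y) * φ y) (Ioi 0) ∧
      ∫ y : ℝ in Ioi 0, Complex.exp (a * y) * φ y = (1 - a)⁻¹ := by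
    intro a ha
    have e : EqOn (fun y : ℝ => Complex.exp ((a - 1) * y)) (fun y => Complex.exp (a * y) * φ y)
        (Ioi 0) := fun y hy => by
      simp only [hφ, ← Complex.exp_add, abs_of_pos (mem_Ioi.1 hy)]
      congr 1; ring
    have hre : (a - 1).re < 0 := by simp [ha]
    refine ⟨(integrableOn_exp_mul_complex_Ioi hre 0).congr_fun e measurableSet_Ioi, ?_⟩
    rw [← setIntegral_congr_fun measurableSet_Ioi e, integral_exp_mul_complex_Ioi hre,
      ← neg_sub a 1, inv_neg]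
    simp [neg_div]
  have hi : Integrable φ := by
    have := (h1 0 rfl).1.union (h2 0 rfl).1
    simpa using this
  have hF : ∀ w : ℝ, 𝓕 φ w = ((2 * (1 + (2 * Real.pi * w) ^ 2)⁻¹ : ℝ) : ℂ) := by
    intro w
    set a : ℂ := -(2 * Real.pi * w) * Complex.I with ha
    have hre : a.re = 0 := by simp [ha]
    have e : 𝓕 φ w = ∫ y : ℝ, Complex.exp (a * y) * φ y := by
      rw [Real.fourier_real_eq_integral_exp_smul]
      congr 1; ext y; rw [smul_eq_mul]; congr 2; simp only [ha]; push_cast; ring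
    rw [e, ← intervalIntegral.integral_Iic_add_Ioi (h1 a hre).1 (h2 a hre).1, (h1 a hre).2,
      (h2 a hre).2]
    have n1 : 1 + a ≠ 0 := fun h => by simpa [hre] using congrArg Complex.re h
    have n2 : 1 - a ≠ 0 := fun h => by simpa [hre] using congrArg Complex.re h
    have n3 : (1 + a) * (1 - a) = 1 + (2 * Real.pi * w) ^ 2 := by
      simp only [ha]
      linear_combination (-(2 * Real.pi * w : ℂ) ^ 2) * Complex.I_sq
    push_cast
    rw [← n3]; field_simp; ring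
  have hF' : 𝓕 φ = fun w : ℝ => ((2 * (1 + (2 * Real.pi * w) ^ 2)⁻¹ : ℝ) : ℂ) := funext hF
  have hFi : Integrable (𝓕 φ) := by
    rw [hF']
    refine Integrable.ofReal (Integrable.const_mul ?_ 2)
    exact integrable_inv_one_add_sq.comp_mul_left' (by positivity : 2 * Real.pi ≠ 0)
  refine ⟨𝓕 φ, by rw [hF']; fun_prop, hFi, fun y hy => ?_⟩
  have h3 := congrFun (hc.fourierInv_fourier_eq hi hFi) y
  rw [Real.fourierInv_eq'] at h3
  have h4 : φ y = (Real.exp (-y) : ℂ) := by simp [hφ, abs_of_nonneg hy]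
  rw [← h4, ← h3]
  congr 1; ext v
  rw [smul_eq_mul, mul_comm, ph]
  congr 2
  simp [mul_comm]

end Crest.Agent.N76.Red
end

-- ▼ part N76/Red/Max

/-! # Row 76: the weak type maximal estimate (helper14). -/

set_option autoImplicit false

open MeasureTheory Set Metric Filter Topology
open scoped ENNReal RealInnerProductSpace

namespace Crest.Agent.N76.Red

variable {n : ℕ}

/-- the kernel of the regularised evolution -/
noncomputable def Kr (x ξ : V n) (a t : ℝ) : ℂ :=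
  Complex.exp (2 * Real.pi * ⟪x, ξ⟫ * Complex.I
    - 4 * Real.pi ^ 2 * ‖ξ‖ ^ 2 * ((a : ℂ) + t * Complex.I))

/-- the regularised evolution -/
noncomputable def U (h : V n → ℂ) (a t : ℝ) (x : V n) : ℂ := ∫ ξ, Kr x ξ a t * h ξ

theorem Kr_eq (x ξ : V n) (a t : ℝ) : Kr x ξ a t =
    (Real.exp (-(4 * Real.pi ^ 2 * a * ‖ξ‖ ^ 2)) : ℂ) *
      ph (⟪x, ξ⟫ + (-(2 * Real.pi * t)) * ‖ξ‖ ^ 2) := by
  rw [Kr, ph, Complex.ofReal_exp, ← Complex.exp_add]
  congr 1; push_cast; ring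

theorem norm_Kr (x ξ : V n) (a t : ℝ) :
    ‖Kr x ξ a t‖ = Real.exp (-(4 * Real.pi ^ 2 * a * ‖ξ‖ ^ 2)) := by
  rw [Kr_eq, norm_mul, norm_ph, mul_one, Complex.norm_real, Real.norm_of_nonneg (Real.exp_pos _).le]

theorem continuous_Kr : Continuous fun p : (V n × V n) × ℝ × ℝ => Kr p.1.1 p.1.2 p.2.1 p.2.2 := by
  unfold Kr; fun_prop

theorem norm_Kr_le (x ξ : V n) {a a₀ : ℝ} (h : a₀ ≤ a) (t : ℝ) :
    ‖Kr x ξ a t‖ ≤ Real.exp (-(4 * Real.pi ^ 2 * a₀ * ‖ξ‖ ^ 2)) := by
  rw [norm_Kr]; gcongr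

theorem integrable_gauss_mul {h : V n → ℂ} (hh : MemLp h 2 volume) {a : ℝ} (ha : 0 < a) :
    Integrable fun ξ => Real.exp (-(4 * Real.pi ^ 2 * a * ‖ξ‖ ^ 2)) * ‖h ξ‖ := by
  have h1 : MemLp (fun ξ : V n => Real.exp (-(4 * Real.pi ^ 2 * a * ‖ξ‖ ^ 2))) 2 volume := by
    rw [memLp_two_iff_integrable_sq_norm (by fun_prop)]
    have := (GaussianFourier.integrable_cexp_neg_mul_sq_norm_add (V := V n)
      (b := ((8 * Real.pi ^ 2 * a : ℝ) : ℂ)) (by rw [Complex.ofReal_re]; positivity) 0 0).norm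
    refine this.congr (Eventually.of_forall fun ξ => ?_)
    simp only [zero_mul, add_zero, Complex.norm_exp, Real.norm_of_nonneg (Real.exp_pos _).le,
      ← Real.exp_nat_mul]
    congr 1
    rw [← Complex.ofReal_pow, ← Complex.ofReal_neg, ← Complex.ofReal_mul, Complex.ofReal_re]
    push_cast; ring
  exact h1.integrable_mul hh.norm

theorem integrable_Kr_mul {h : V n → ℂ} (hh : MemLp h 2 volume) {a : ℝ} (ha : 0 < a) (t : ℝ)
    (x : V n) : Integrable fun ξ => Kr x ξ a t * h ξ := by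
  refine (integrable_gauss_mul hh ha).mono' ?_ (Eventually.of_forall fun ξ => ?_)
  · exact (continuous_Kr.comp (f := fun ξ : V n => ((x, ξ), a, t))
      (by fun_prop)).aestronglyMeasurable.mul hh.1
  · rw [norm_mul, norm_Kr]

theorem continuous_U {h : V n → ℂ} (hh : MemLp h 2 volume) (x : V n) :
    Continuous fun p : ℝ × ℝ => U h (Real.exp p.1) p.2 x := by
  refine continuous_iff_continuousAt.2 fun p₀ => ?_
  refine continuousAt_of_dominated (bound := fun ξ =>
    Real.exp (-(4 * Real.pi ^ 2 * Real.exp (p₀.1 - 1) * ‖ξ‖ ^ 2)) * ‖h ξ‖)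
    (Eventually.of_forall fun p => (integrable_Kr_mul hh (Real.exp_pos _) _ _).1) ?_
    (integrable_gauss_mul hh (Real.exp_pos _)) (Eventually.of_forall fun ξ => ?_)
  · have : ∀ᶠ p : ℝ × ℝ in 𝓝 p₀, p₀.1 - 1 < p.1 :=
      continuousAt_fst.eventually (lt_mem_nhds (by linarith))
    filter_upwards [this] with p hp
    refine Eventually.of_forall fun ξ => ?_
    rw [norm_mul]
    gcongr
    exact norm_Kr_le _ _ (Real.exp_le_exp.2 hp.le) _
  · exact ((continuous_Kr.comp (f := fun p : ℝ × ℝ => ((x, ξ), Real.exp p.1, p.2))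
      (by fun_prop)).mul continuous_const).continuousAt

theorem measurable_U {h : V n → ℂ} (hh : Measurable h) {a t : V n → ℝ} (ha : Measurable a)
    (ht : Measurable t) : Measurable fun x => U h (a x) (t x) x := by
  have : Measurable fun q : V n × V n => Kr q.1 q.2 (a q.1) (t q.1) * h q.2 :=
    (continuous_Kr.measurable.comp (f := fun q : V n × V n => ((q.1, q.2), a q.1, t q.1))
      (by fun_prop)).mul (hh.comp measurable_snd)
  exact (this.stronglyMeasurable.integral_prod_right' (ν := volume)).measurable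

theorem memLp_wt_mul {u : V n → ℂ} (hu : MemLp u 2 volume) :
    MemLp (fun ξ => (wt n ξ : ℂ) * u ξ) 2 volume := by
  refine hu.of_le ((Complex.continuous_ofReal.comp continuous_wt).aestronglyMeasurable.mul hu.1)
    (Eventually.of_forall fun ξ => ?_)
  rw [norm_mul, Complex.norm_real, Real.norm_of_nonneg (wt_pos ξ).le]
  exact mul_le_of_le_one_left (norm_nonneg _) (wt_le_one ξ)

theorem weighted_cs {P f : ℝ → ℂ} (hP : Measurable P) (hf : Measurable f) :
    ‖∫ v, P v * f v‖ₑ ^ 2 ≤ (∫⁻ v, ‖P v‖ₑ) * ∫⁻ v, ‖P v‖ₑ * ‖f v‖ₑ ^ 2 := by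
  have h := lintegral_cs (volume.withDensity fun v => ‖P v‖ₑ) (f := fun _ => 1)
    (g := fun v => ‖f v‖ₑ) aemeasurable_const hf.enorm.aemeasurable
  simp only [one_mul, one_pow] at h
  rw [lintegral_withDensity_eq_lintegral_mul _ hP.enorm hf.enorm,
    lintegral_withDensity_eq_lintegral_mul _ hP.enorm measurable_const,
    lintegral_withDensity_eq_lintegral_mul _ hP.enorm (hf.enorm.pow_const 2)] at h
  simp only [Pi.mul_apply, mul_one] at h
  refine le_trans (pow_le_pow_left' (enorm_integral_le_lintegral_enorm _) 2) ?_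
  simpa only [enorm_mul] using h

/-- dual estimate for the regularised kernel -/
theorem dual_Kr (hn : 1 ≤ n) (hSS : SS n) : ∃ C : ℝ≥0∞, C ≠ ∞ ∧ ∀ x₀ : V n,
    ∀ E : Set (V n), MeasurableSet E → E ⊆ closedBall x₀ 1 → ∀ a t : V n → ℝ, Measurable a →
      Measurable t → ∀ B : ℝ, (∀ x, 0 ≤ a x ∧ a x ≤ B ∧ |t x| ≤ B) → ∀ g, Adm E g →
      ∫⁻ ξ, (ENNReal.ofReal (wt n ξ) * ‖∫ x, g x * Kr x ξ (a x) (t x)‖ₑ) ^ 2 ≤ C * volume E := by
  obtain ⟨C, hC, hd⟩ := dual hn hSS
  obtain ⟨P, mP, iP, hP⟩ := exists_poisson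
  have hI : ∫⁻ v, ‖P v‖ₑ ≠ ∞ := iP.2.ne
  refine ⟨(∫⁻ v, ‖P v‖ₑ) * ((∫⁻ v, ‖P v‖ₑ) * C), by finiteness,
    fun x₀ E hE hEb a t ha ht B hB g hg => ?_⟩
  have hfin : volume E ≠ ∞ := ((measure_mono hEb).trans_lt measure_closedBall_lt_top).ne
  have hgi := hg.integrable hE hfin
  set τ : ℝ → V n → ℝ := fun v x => -(2 * Real.pi * t x) + 4 * Real.pi ^ 2 * a x * v with hτ
  have mτ : ∀ v, Measurable (τ v) := fun v => by simp only [hτ]; fun_prop
  have cH : Continuous fun q : V n × ℝ => H g (τ q.2) q.1 := by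
    unfold H HH
    refine continuous_of_dominated (bound := fun x => ‖g x‖) (fun p => ?_) (fun p => ?_)
      hgi.norm ?_
    · exact (integrable_mul_ph hgi (measurable_phase (mτ _) _ _)).1
    · exact Eventually.of_forall fun x => by rw [norm_mul, norm_ph, mul_one]
    · refine Eventually.of_forall fun x => ?_
      exact continuous_const.mul (continuous_ph.comp (by simp only [hτ]; fun_prop))
  have h1 : ∀ ξ, ∫ x, g x * Kr x ξ (a x) (t x) = ∫ v, P v * H g (τ v) ξ := by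
    intro ξ
    unfold H HH
    simp_rw [← integral_const_mul]
    rw [integral_integral_swap]
    · congr 1; ext x
      rw [Kr_eq, hP _ (by have := (hB x).1; positivity), ← integral_mul_const,
        ← integral_const_mul]
      congr 1; ext v
      rw [mul_assoc, ← ph_add, mul_left_comm]
      congr 3; simp only [hτ]; ring
    · have h1 : Integrable (fun p : ℝ × V n => P p.1 * g p.2) (volume.prod volume) :=
        iP.mul_prod hgi
      have h2 : Measurable fun p : ℝ × V n => ph (⟪p.2, ξ⟫ + τ p.1 p.2 * ‖ξ‖ ^ 2) :=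
        measurable_ph.comp (by simp only [hτ]; fun_prop)
      refine h1.norm.mono' ((h1.1.mul h2.aestronglyMeasurable).congr
        (Eventually.of_forall fun p => ?_)) (Eventually.of_forall fun p => ?_)
      · simp [Function.uncurry, mul_assoc]
      · simp [Function.uncurry, norm_ph]
  have m1 : Measurable fun q : V n × ℝ => ‖P q.2‖ₑ *
      (ENNReal.ofReal (wt n q.1 ^ 2) * ‖H g (τ q.2) q.1‖ₑ ^ 2) :=
    (mP.comp measurable_snd).enorm.mul
      ((((continuous_wt.measurable.comp measurable_fst).pow_const 2).ennreal_ofReal).mul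
        (cH.measurable.enorm.pow_const 2))
  calc _ ≤ ∫⁻ ξ, (∫⁻ v, ‖P v‖ₑ) * ∫⁻ v, ‖P v‖ₑ *
        (ENNReal.ofReal (wt n ξ ^ 2) * ‖H g (τ v) ξ‖ₑ ^ 2) := by
        refine lintegral_mono fun ξ => ?_
        simp only [h1, mul_pow, mul_left_comm ‖P _‖ₑ]
        rw [lintegral_const_mul' _ _ ENNReal.ofReal_ne_top, mul_left_comm,
          ENNReal.ofReal_pow (wt_pos ξ).le]
        gcongr
        exact weighted_cs mP (cH.comp (f := fun v : ℝ => (ξ, v)) (by fun_prop)).measurable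
    _ = (∫⁻ v, ‖P v‖ₑ) * ∫⁻ v, ‖P v‖ₑ *
        ∫⁻ ξ, ENNReal.ofReal (wt n ξ ^ 2) * ‖H g (τ v) ξ‖ₑ ^ 2 := by
        rw [lintegral_const_mul' _ _ hI, lintegral_lintegral_swap m1.aemeasurable]
        congr 1
        exact lintegral_congr fun v => lintegral_const_mul' _ _ enorm_ne_top
    _ ≤ (∫⁻ v, ‖P v‖ₑ) * ∫⁻ v, ‖P v‖ₑ * (C * volume E) := by
        gcongr with v
        refine hd x₀ E hE hEb (τ v) (mτ v) (2 * Real.pi * B + 4 * Real.pi ^ 2 * B * |v|)
          (fun x _ => ?_) g hg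
        obtain ⟨h1, h2, h3⟩ := hB x
        refine (abs_add_le _ _).trans ?_
        rw [abs_neg, abs_mul _ (t x), abs_mul _ v, abs_mul _ (a x), abs_of_nonneg h1,
          abs_of_pos (by positivity : 0 < 2 * Real.pi),
          abs_of_pos (by positivity : 0 < 4 * Real.pi ^ 2)]
        gcongr
    _ = _ := by rw [lintegral_mul_const _ mP.enorm]; ring

/-- linearised maximal estimate -/
theorem lin_max (hn : 1 ≤ n) (hSS : SS n) : ∃ C : ℝ≥0∞, C ≠ ∞ ∧ ∀ x₀ : V n,
    ∀ E : Set (V n), MeasurableSet E → E ⊆ closedBall x₀ 1 → ∀ a t : V n → ℝ, Measurable a →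
      Measurable t → ∀ a₀ B : ℝ, 0 < a₀ → (∀ x, a₀ ≤ a x ∧ a x ≤ B ∧ |t x| ≤ B) →
      ∀ u : V n → ℂ, Measurable u → MemLp u 2 volume →
      (∫⁻ x in E, ‖U (fun ξ => (wt n ξ : ℂ) * u ξ) (a x) (t x) x‖ₑ) ^ 2 ≤
        (∫⁻ ξ, ‖u ξ‖ₑ ^ 2) * (C * volume E) := by
  obtain ⟨C, hC, hd⟩ := dual_Kr hn hSS
  refine ⟨C, hC, fun x₀ E hE hEb a t ha ht a₀ B ha₀ hB u mu hu => ?_⟩
  have hfin : volume E ≠ ∞ := ((measure_mono hEb).trans_lt measure_closedBall_lt_top).ne
  set h : V n → ℂ := fun ξ => (wt n ξ : ℂ) * u ξ with hh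
  have mh : Measurable h := (Complex.continuous_ofReal.comp continuous_wt).measurable.mul mu
  have hh2 : MemLp h 2 volume := memLp_wt_mul hu
  set f : V n → ℂ := fun x => U h (a x) (t x) x with hf
  have mf : Measurable f := measurable_U mh ha ht
  set g : V n → ℂ := E.indicator fun x => (starRingEnd ℂ) (f x) / ‖f x‖ with hg
  have hgA : Adm E g := by
    refine ⟨Measurable.indicator ((Complex.continuous_conj.measurable.comp mf).div
      (Complex.measurable_ofReal.comp mf.norm)) hE, fun x => ?_,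
      fun x hx => indicator_of_notMem hx _⟩
    by_cases hx : x ∈ E
    · simp only [hg, indicator_of_mem hx, norm_div, Complex.norm_conj, Complex.norm_real,
        norm_norm]
      exact div_self_le_one _
    · simp [hg, hx]
  have hgi := hgA.integrable hE hfin
  have mK : Measurable fun q : V n × V n => Kr q.1 q.2 (a q.1) (t q.1) :=
    continuous_Kr.measurable.comp (f := fun q : V n × V n => ((q.1, q.2), a q.1, t q.1))
      (by fun_prop)
  have hprod : Integrable (fun q : V n × V n => g q.1 * (Kr q.1 q.2 (a q.1) (t q.1) * h q.2))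
      (volume.prod volume) := by
    refine (hgi.norm.mul_prod (integrable_gauss_mul hh2 ha₀)).mono'
      ((hgA.1.comp measurable_fst).mul (mK.mul (mh.comp measurable_snd))).aestronglyMeasurable
      (Eventually.of_forall fun q => ?_)
    rw [norm_mul, norm_mul]
    gcongr
    exact norm_Kr_le _ _ (hB _).1 _
  have e1 : ∀ x, g x * f x = ((E.indicator (fun x => ‖f x‖) x : ℝ) : ℂ) := by
    intro x
    by_cases hx : x ∈ E
    · simp only [hg, indicator_of_mem hx]
      rcases eq_or_ne (f x) 0 with h0 | h0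
      · simp [h0]
      · have : (‖f x‖ : ℂ) ≠ 0 := by simpa using h0
        rw [div_mul_eq_mul_div, Complex.conj_mul', div_eq_iff this, sq]
    · simp [hg, hx]
  have e0 : ∀ x, g x * f x = ∫ ξ, g x * (Kr x ξ (a x) (t x) * h ξ) := fun x => by
    rw [integral_const_mul]; rfl
  have i1 : Integrable fun x => g x * f x := by
    simp_rw [e0]; exact hprod.integral_prod_left
  have i2 : Integrable (E.indicator fun x => ‖f x‖) := by
    refine i1.norm.congr (Eventually.of_forall fun x => ?_)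
    simp only [e1, Complex.norm_real]
    exact Real.norm_of_nonneg (indicator_nonneg (fun _ _ => norm_nonneg _) _)
  have e2 : ∫⁻ x in E, ‖f x‖ₑ = ‖∫ x, g x * f x‖ₑ := by
    have h0 : ∀ x, 0 ≤ E.indicator (fun x => ‖f x‖) x :=
      indicator_nonneg fun _ _ => norm_nonneg _
    simp_rw [e1]
    rw [integral_complex_ofReal, ← ofReal_norm, Complex.norm_real,
      Real.norm_of_nonneg (integral_nonneg h0),
      ofReal_integral_eq_lintegral_ofReal i2 (Eventually.of_forall h0), ← lintegral_indicator hE]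
    refine lintegral_congr fun x => ?_
    by_cases hx : x ∈ E <;> simp [hx]
  have e3 : ∫ x, g x * f x = ∫ ξ, h ξ * ∫ x, g x * Kr x ξ (a x) (t x) := by
    simp_rw [e0]
    rw [integral_integral_swap hprod]
    congr 1; ext ξ
    rw [← integral_const_mul]
    congr 1; ext x; ring
  have mG : Measurable fun ξ => ∫ x, g x * Kr x ξ (a x) (t x) :=
    (((hgA.1.comp measurable_fst).mul mK).stronglyMeasurable.integral_prod_left'
      (μ := volume)).measurable
  rw [e2, e3]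
  refine le_trans (pow_le_pow_left' (enorm_integral_le_lintegral_enorm _) 2) ?_
  have e4 : ∀ ξ, ‖h ξ * ∫ x, g x * Kr x ξ (a x) (t x)‖ₑ =
      ‖u ξ‖ₑ * (ENNReal.ofReal (wt n ξ) * ‖∫ x, g x * Kr x ξ (a x) (t x)‖ₑ) := by
    intro ξ
    have : ‖(wt n ξ : ℂ)‖ₑ = ENNReal.ofReal (wt n ξ) := by
      rw [← ofReal_norm, Complex.norm_real, Real.norm_of_nonneg (wt_pos ξ).le]
    simp only [hh, enorm_mul, this]; ring
  simp_rw [e4]
  refine (lintegral_cs volume mu.enorm.aemeasurable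
    (continuous_wt.measurable.ennreal_ofReal.mul mG.enorm).aemeasurable).trans ?_
  gcongr
  exact hd x₀ E hE hEb a t ha ht B (fun x => ⟨ha₀.le.trans (hB x).1, (hB x).2⟩) g hgA

/-- **Weak type maximal estimate.** -/
theorem weak_max (hn : 1 ≤ n) (hSS : SS n) : ∃ C : ℝ≥0∞, C ≠ ∞ ∧ ∀ x₀ : V n,
    ∀ u : V n → ℂ, Measurable u → MemLp u 2 volume → ∀ lam : ℝ, 0 < lam →
      ENNReal.ofReal lam ^ 2 * volume {x | x ∈ closedBall x₀ 1 ∧ ∃ a t : ℝ, 0 < a ∧
        lam < ‖U (fun ξ => (wt n ξ : ℂ) * u ξ) a t x‖} ≤ C * ∫⁻ ξ, ‖u ξ‖ₑ ^ 2 := by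
  classical
  obtain ⟨C, hC, hl⟩ := lin_max hn hSS
  refine ⟨C, hC, fun x₀ u mu hu lam hlam => ?_⟩
  set h : V n → ℂ := fun ξ => (wt n ξ : ℂ) * u ξ with hh
  have mh : Measurable h := (Complex.continuous_ofReal.comp continuous_wt).measurable.mul mu
  have hh2 : MemLp h 2 volume := memLp_wt_mul hu
  set d : ℕ → ℝ × ℝ := TopologicalSpace.denseSeq (ℝ × ℝ) with hd
  set Q : V n → ℕ → Prop := fun x j => lam < ‖U h (Real.exp (d j).1) (d j).2 x‖ with hQ
  have mQ : ∀ j, MeasurableSet {x | Q x j} := fun j =>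
    measurableSet_lt measurable_const (measurable_U mh measurable_const measurable_const).norm
  set E : ℕ → Set (V n) := fun J => closedBall x₀ 1 ∩ ⋃ j ∈ Finset.range (J + 1), {x | Q x j}
    with hE
  have mE : ∀ J, MeasurableSet (E J) := fun J =>
    measurableSet_closedBall.inter (Finset.measurableSet_biUnion _ fun j _ => mQ j)
  have hmono : Monotone E := fun J J' hJ => inter_subset_inter_right _
    (biUnion_subset_biUnion_left (by
      exact_mod_cast Finset.range_subset_range.2 (Nat.succ_le_succ hJ)))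
  have hsub : {x | x ∈ closedBall x₀ 1 ∧ ∃ a t : ℝ, 0 < a ∧ lam < ‖U h a t x‖} ⊆ ⋃ J, E J := by
    rintro x ⟨hx, a, t, ha, hlt⟩
    have ho : IsOpen {p : ℝ × ℝ | lam < ‖U h (Real.exp p.1) p.2 x‖} :=
      isOpen_lt continuous_const (continuous_U hh2 x).norm
    obtain ⟨j, hj⟩ := (TopologicalSpace.denseRange_denseSeq (ℝ × ℝ)).exists_mem_open ho
      ⟨(Real.log a, t), by simpa [Real.exp_log ha] using hlt⟩
    exact mem_iUnion.2 ⟨j, hx, mem_iUnion₂.2 ⟨j, Finset.self_mem_range_succ j, hj⟩⟩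
  refine (mul_le_mul_right (measure_mono hsub) _).trans ?_
  rw [hmono.measure_iUnion, ENNReal.mul_iSup]
  refine iSup_le fun J => ?_
  set B : ℝ := ∑ j ∈ Finset.range (J + 1), (|(d j).1| + |(d j).2|) with hB
  have hBj : ∀ j ≤ J, |(d j).1| + |(d j).2| ≤ B := fun j hj =>
    Finset.single_le_sum (f := fun j => |(d j).1| + |(d j).2|) (fun i _ => by positivity)
      (Finset.mem_range.2 (Nat.lt_succ_of_le hj))
  set jx : V n → ℕ := fun x => Nat.findGreatest (Q x) J with hjx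
  have mj : Measurable jx := measurable_findGreatest fun j _ => mQ j
  have key := hl x₀ (E J) (mE J) inter_subset_left (fun x => Real.exp (d (jx x)).1)
    (fun x => (d (jx x)).2)
    ((measurable_of_countable fun j : ℕ => Real.exp (d j).1).comp mj)
    ((measurable_of_countable fun j : ℕ => (d j).2).comp mj) (Real.exp (-B)) (Real.exp B)
    (Real.exp_pos _) (fun x => by
      have h1 := hBj (jx x) (Nat.findGreatest_le J)
      have h2 := abs_nonneg (d (jx x)).1
      have h3 := abs_nonneg (d (jx x)).2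
      have h4 := neg_abs_le (d (jx x)).1
      have h5 := le_abs_self (d (jx x)).1
      have h6 := Real.add_one_le_exp B
      exact ⟨Real.exp_le_exp.2 (by linarith), Real.exp_le_exp.2 (by linarith), by linarith⟩)
    u mu hu
  have low : ENNReal.ofReal lam * volume (E J) ≤
      ∫⁻ x in E J, ‖U h (Real.exp (d (jx x)).1) (d (jx x)).2 x‖ₑ := by
    rw [← setLIntegral_const]
    refine setLIntegral_mono' (mE J) fun x hx => ?_
    obtain ⟨j, hj, hq⟩ := mem_iUnion₂.1 hx.2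
    have : Q x (jx x) := Nat.findGreatest_spec (Nat.lt_succ_iff.1 (Finset.mem_range.1 hj)) hq
    rw [← ofReal_norm]
    exact ENNReal.ofReal_le_ofReal this.le
  have hfin : volume (E J) ≠ ∞ :=
    ((measure_mono inter_subset_left).trans_lt measure_closedBall_lt_top).ne
  rcases eq_or_ne (volume (E J)) 0 with h0 | h0
  · rw [h0, mul_zero]; exact zero_le
  · refine (ENNReal.mul_le_mul_iff_left h0 hfin).1 ?_
    calc _ = (ENNReal.ofReal lam * volume (E J)) ^ 2 := by ring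
      _ ≤ _ := (pow_le_pow_left' low 2).trans key
      _ = _ := by ring

end Crest.Agent.N76.Red
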